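import Mathlib

/-!
# P238: basic definitions (edit distance, Walsh coefficients, block permutations)
-/

namespace P238

open Finset

/-- One edit operation on words over `α`: insertion, deletion or substitution of one symbol. -/
inductive Edit {α : Type*} : List α → List α → Prop
  | ins (u v : List α) (a : α) : Edit (u ++ v) (u ++ a :: v)
  | del (u v : List α) (a : α) : Edit (u ++ a :: v) (u ++ v)
  | sub (u v : List α) (a b : α) : Edit (u ++ a :: v) (u ++ b :: v)

/-- `Reach k x y`: the word `x` can be transformed into `y` by `k` edit operations. -/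
inductive Reach {α : Type*} : ℕ → List α → List α → Prop
  | refl (x : List α) : Reach 0 x x
  | step {k : ℕ} {x y z : List α} (h : Reach k x y) (e : Edit y z) : Reach (k + 1) x z

/-- The edit distance: the least number of single-symbol insertions, deletions and
substitutions transforming `x` into `y`. -/
noncomputable def editDist {α : Type*} (x y : List α) : ℕ := sInf {k | Reach k x y}

/-- Binary words of length `n`. -/
abbrev Word (n : ℕ) := Fin n → Bool

/-- The edit distance between binary words of length `n`. -/
noncomputable def ed {n : ℕ} (x y : Word n) : ℕ := editDist (List.ofFn x) (List.ofFn y)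

section Fourier

variable {ι : Type*} [Fintype ι] [DecidableEq ι]

/-- The Walsh character. -/
def chi (S : Finset ι) (x : ι → Bool) : ℝ := ∏ i ∈ S, (if x i then (-1 : ℝ) else 1)

/-- The Walsh coefficient. -/
noncomputable def coef (f : (ι → Bool) → ℝ) (S : Finset ι) : ℝ :=
  (∑ x, f x * chi S x) / 2 ^ (Fintype.card ι)

/-- flip the `i`-th coordinate. -/
def flip (i : ι) (x : ι → Bool) : ι → Bool := Function.update x i (!(x i))

/-- The total (unnormalised) variation of `f` under a map of words. -/
def tv (f : (ι → Bool) → ℝ) (g : (ι → Bool) → (ι → Bool)) : ℝ := ∑ x, |f x - f (g x)|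

/-- `f` takes values in `{0,1}`. -/
def IsCut (f : (ι → Bool) → ℝ) : Prop := ∀ x, f x = 0 ∨ f x = 1

end Fourier

section Blocks

variable {ι β C κ : Type*}

/-- The permutation of `ι ≃ β × C × κ` applying `g B` to the middle coordinate of the
big block `B`. -/
def blockPerm (e : ι ≃ β × C × κ) (g : β → Equiv.Perm C) : Equiv.Perm ι where
  toFun p := e.symm ((e p).1, g (e p).1 (e p).2.1, (e p).2.2)
  invFun p := e.symm ((e p).1, (g (e p).1).symm (e p).2.1, (e p).2.2)
  left_inv p := by simp
  right_inv p := by simp

/-- A set of positions is relevant if some big block contains two hit sub-blocks. -/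
def Rel (e : ι ≃ β × C × κ) (S : Finset ι) : Prop :=
  ∃ p ∈ S, ∃ q ∈ S, (e p).1 = (e q).1 ∧ (e p).2.1 ≠ (e q).2.1

/-- Cyclic rotation by `v` inside the window `Q`. -/
def winRot {V : Type*} [AddGroup V] [DecidableEq β] (e : ι ≃ β × V) (Q : β) (v : V) :
    Equiv.Perm ι where
  toFun p := if (e p).1 = Q then e.symm ((e p).1, (e p).2 + v) else p
  invFun p := if (e p).1 = Q then e.symm ((e p).1, (e p).2 - v) else p
  left_inv p := by
    by_cases h : (e p).1 = Q
    · simp [h]
      rw [← h]; simp
    · simp [h]
  right_inv p := by
    by_cases h : (e p).1 = Q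
    · simp [h]
      rw [← h]; simp
    · simp [h]

end Blocks

/-- Splitting of positions of a word of length `nb * (l * s)` into big block, sub-block, offset. -/
def split3 (nb l s : ℕ) : Fin (nb * (l * s)) ≃ Fin nb × Fin l × Fin s :=
  finProdFinEquiv.symm.trans (Equiv.prodCongr (Equiv.refl _) finProdFinEquiv.symm)

end P238
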