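import Vale.Agent.P238.Window

namespace P238
open Finset

namespace BwinAux

section
variable {ι β V : Type*} [Fintype ι] [DecidableEq ι] [DecidableEq β]
  [Fintype V] [DecidableEq V]

/-- put the word `z` into the window `Q` of the word `y`. -/
def merge (e : ι ≃ β × V) (Q : β) (z : V → Bool) (y : ι → Bool) : ι → Bool :=
  fun p => if (e p).1 = Q then z (e p).2 else y p

/-- the restriction to the window `Q`. -/
def restr (e : ι ≃ β × V) (Q : β) (y : ι → Bool) : V → Bool := fun v => y (e.symm (Q, v))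

omit [Fintype ι] [DecidableEq ι] [Fintype V] [DecidableEq V] in
lemma restr_merge (e : ι ≃ β × V) (Q : β) (z : V → Bool) (y : ι → Bool) :
    restr e Q (merge e Q z y) = z := by
  funext v
  simp [restr, merge]

omit [Fintype ι] [DecidableEq ι] [Fintype V] [DecidableEq V] in
lemma merge_restr (e : ι ≃ β × V) (Q : β) (z : V → Bool) (y : ι → Bool) :
    merge e Q (restr e Q y) (merge e Q z y) = y := by
  funext p
  by_cases h : (e p).1 = Q
  · have h2 : e.symm (Q, (e p).2) = p := by rw [← h]; simp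
    simp [merge, restr, h, h2]
  · simp [merge, h]

/-- the exchange involution. -/
def swp (e : ι ≃ β × V) (Q : β) (w : (V → Bool) × (ι → Bool)) : (V → Bool) × (ι → Bool) :=
  (restr e Q w.2, merge e Q w.1 w.2)

omit [Fintype ι] [DecidableEq ι] [Fintype V] [DecidableEq V] in
lemma swp_invol (e : ι ≃ β × V) (Q : β) : Function.Involutive (swp e Q) := by
  rintro ⟨z, y⟩
  simp only [swp, restr_merge, merge_restr]

lemma sum_swap (e : ι ≃ β × V) (Q : β) (F : (ι → Bool) → (ι → Bool) → ℝ) :
    ∑ y, ∑ z, F (merge e Q z y) y = ∑ y, ∑ z, F y (merge e Q z y) := by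
  have h1 : ∑ y, ∑ z, F (merge e Q z y) y
      = ∑ w : (V → Bool) × (ι → Bool), F (merge e Q w.1 w.2) w.2 := by
    rw [Fintype.sum_prod_type, Finset.sum_comm]
  have h2 : ∑ y, ∑ z, F y (merge e Q z y)
      = ∑ w : (V → Bool) × (ι → Bool), F w.2 (merge e Q w.1 w.2) := by
    rw [Fintype.sum_prod_type, Finset.sum_comm]
  rw [h1, h2]
  refine Fintype.sum_equiv (swp_invol e Q).toPerm _ _ fun w => ?_
  simp only [Function.Involutive.coe_toPerm, swp, merge_restr]

lemma sum_merge (e : ι ≃ β × V) (Q : β) (F : (ι → Bool) → ℝ) :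
    ∑ y, ∑ z, F (merge e Q z y) = 2 ^ (Fintype.card V) * ∑ x, F x := by
  have h := sum_swap e Q (fun a _ => F a)
  rw [h, Finset.mul_sum]
  refine Finset.sum_congr rfl fun x _ => ?_
  rw [Finset.sum_const, Finset.card_univ, Fintype.card_fun, Fintype.card_bool, nsmul_eq_mul]
  push_cast
  ring

omit [Fintype ι] in
lemma chi_merge_of_not (e : ι ≃ β × V) (Q : β) (S : Finset ι)
    (hS : Q ∉ S.image (fun p => (e p).1)) (z : V → Bool) (y : ι → Bool) :
    chi S (merge e Q z y) = chi S y := by
  unfold chi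
  refine Finset.prod_congr rfl fun p hp => ?_
  have h : (e p).1 ≠ Q := fun h => hS (Finset.mem_image.mpr ⟨p, hp, h⟩)
  simp [merge, h]

omit [Fintype ι] [Fintype V] in
lemma merge_flip (e : ι ≃ β × V) (Q : β) (v : V) (z : V → Bool) (y : ι → Bool) :
    merge e Q (flip v z) y = flip (e.symm (Q, v)) (merge e Q z y) := by
  funext p
  by_cases hp : p = e.symm (Q, v)
  · subst hp
    simp [merge, flip]
  · have h1 : flip (e.symm (Q, v)) (merge e Q z y) p = merge e Q z y p := by
      simp [flip, Function.update_of_ne hp]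
    rw [h1]
    by_cases h : (e p).1 = Q
    · have h2 : (e p).2 ≠ v := by
        intro h2
        apply hp
        rw [← h, ← h2]
        simp
      simp [merge, h, flip, Function.update_of_ne h2]
    · simp [merge, h]

omit [Fintype ι] in
lemma chi_flip_of_mem (S : Finset ι) (i : ι) (hi : i ∈ S) (x : ι → Bool) :
    chi S (flip i x) = - chi S x := by
  unfold chi
  rw [← Finset.mul_prod_erase S _ hi, ← Finset.mul_prod_erase S _ hi]
  have : ∀ k ∈ S.erase i, (if flip i x k then (-1 : ℝ) else 1) = if x k then -1 else 1 := by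
    intro k hk
    have hk' : k ≠ i := Finset.ne_of_mem_erase hk
    simp [flip, Function.update_of_ne hk']
  rw [Finset.prod_congr rfl this]
  cases hx : x i <;> simp [flip, hx]

lemma chi_merge_of_hit (e : ι ≃ β × V) (Q : β) (S : Finset ι)
    (hS : Q ∈ S.image (fun p => (e p).1)) (y : ι → Bool) :
    ∑ z, chi S (merge e Q z y) = 0 := by
  obtain ⟨p, hp, hpQ⟩ := Finset.mem_image.mp hS
  have hpQ' : (e p).1 = Q := hpQ
  have h2 : e.symm (Q, (e p).2) = p := by rw [← hpQ']; simp
  have h1 : ∑ z, chi S (merge e Q z y) = ∑ z, chi S (merge e Q (flip (e p).2 z) y) :=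
    (Fintype.sum_equiv (flip_invol (e p).2).toPerm _ _ fun z => by
      simp only [Function.Involutive.coe_toPerm]).symm
  have h3 : ∀ z, chi S (merge e Q (flip (e p).2 z) y) = - chi S (merge e Q z y) := by
    intro z
    rw [merge_flip, h2, chi_flip_of_mem S p hp]
  simp_rw [h3] at h1
  rw [Finset.sum_neg_distrib] at h1
  linarith

/-- The averaging operator over the window. -/
noncomputable def avg (e : ι ≃ β × V) (Q : β) (f : (ι → Bool) → ℝ) (y : ι → Bool) : ℝ :=
  (∑ z, f (merge e Q z y)) / 2 ^ (Fintype.card V)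

lemma coef_avg (e : ι ≃ β × V) (Q : β) (f : (ι → Bool) → ℝ) (S : Finset ι) :
    coef (avg e Q f) S = if Q ∈ S.image (fun p => (e p).1) then 0 else coef f S := by
  have hV : (2 : ℝ) ^ (Fintype.card V) ≠ 0 := by positivity
  have h1 : ∑ y, avg e Q f y * chi S y
      = (∑ y, ∑ z, f (merge e Q z y) * chi S y) / 2 ^ (Fintype.card V) := by
    rw [Finset.sum_div]
    refine Finset.sum_congr rfl fun y _ => ?_
    unfold avg
    rw [div_mul_eq_mul_div, Finset.sum_mul]
  have h2 : ∑ y, ∑ z, f (merge e Q z y) * chi S y = ∑ y, ∑ z, f y * chi S (merge e Q z y) :=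
    sum_swap e Q (fun a b => f a * chi S b)
  by_cases hS : Q ∈ S.image (fun p => (e p).1)
  · rw [if_pos hS]
    unfold coef
    rw [h1, h2]
    have h3 : ∑ y, ∑ z, f y * chi S (merge e Q z y) = 0 := by
      refine Finset.sum_eq_zero fun y _ => ?_
      rw [← Finset.mul_sum, chi_merge_of_hit e Q S hS, mul_zero]
    rw [h3]
    simp
  · rw [if_neg hS]
    unfold coef
    rw [h1, h2]
    have h3 : ∑ y, ∑ z : V → Bool, f y * chi S (merge e Q z y)
        = 2 ^ (Fintype.card V) * ∑ y, f y * chi S y := by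
      rw [Finset.mul_sum]
      refine Finset.sum_congr rfl fun y _ => ?_
      rw [Finset.sum_congr rfl fun z _ => by rw [chi_merge_of_not e Q S hS],
        Finset.sum_const, Finset.card_univ, Fintype.card_fun, Fintype.card_bool, nsmul_eq_mul]
      push_cast
      ring
    rw [h3, mul_div_cancel_left₀ _ hV]

/-- Sum of the variances of the window restrictions. -/
lemma var_window (e : ι ≃ β × V) (Q : β) (f : (ι → Bool) → ℝ) :
    ∑ y, ∑ T ∈ (univ : Finset (Finset V)) with T ≠ ∅, coef (fun z => f (merge e Q z y)) T ^ 2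
      = 2 ^ (Fintype.card ι) * ∑ S : Finset ι,
        (if Q ∈ S.image (fun p => (e p).1) then coef f S ^ 2 else 0) := by
  have hV : (2 : ℝ) ^ (Fintype.card V) ≠ 0 := by positivity
  have hι : (2 : ℝ) ^ (Fintype.card ι) ≠ 0 := by positivity
  have h1 : ∀ y : ι → Bool,
      ∑ T ∈ (univ : Finset (Finset V)) with T ≠ ∅, coef (fun z => f (merge e Q z y)) T ^ 2
      = (∑ z, f (merge e Q z y) ^ 2) / 2 ^ (Fintype.card V) - avg e Q f y ^ 2 := by
    intro y
    have h2 := Finset.sum_filter_add_sum_filter_not (univ : Finset (Finset V)) (fun T => T ≠ ∅)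
      (fun T => coef (fun z => f (merge e Q z y)) T ^ 2)
    have h3 : ∑ T ∈ (univ : Finset (Finset V)) with ¬ (T ≠ ∅),
        coef (fun z => f (merge e Q z y)) T ^ 2 = avg e Q f y ^ 2 := by
      have : (univ : Finset (Finset V)).filter (fun T => ¬ (T ≠ ∅)) = {∅} := by
        ext S; simp
      rw [this, Finset.sum_singleton]
      unfold coef avg chi
      simp
    rw [h3, parseval] at h2
    linarith
  simp_rw [h1]
  rw [Finset.sum_sub_distrib, ← Finset.sum_div, sum_merge e Q (fun x => f x ^ 2),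
    mul_div_cancel_left₀ _ hV]
  have h2 := parseval f
  have h3 := parseval (avg e Q f)
  rw [eq_div_iff hι] at h2 h3
  rw [← h2, ← h3, ← sub_mul, ← Finset.sum_sub_distrib, mul_comm]
  congr 1
  refine Finset.sum_congr rfl fun S _ => ?_
  rw [coef_avg]
  by_cases hS : Q ∈ S.image (fun p => (e p).1)
  · rw [if_pos hS, if_pos hS]; ring
  · rw [if_neg hS, if_neg hS]; ring

lemma tv_flip (e : ι ≃ β × V) (Q : β) (f : (ι → Bool) → ℝ) (v : V) :
    ∑ y, tv (fun z => f (merge e Q z y)) (flip v)
      = 2 ^ (Fintype.card V) * tv f (flip (e.symm (Q, v))) := by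
  unfold tv
  rw [← sum_merge e Q (fun x => |f x - f (flip (e.symm (Q, v)) x)|)]
  refine Finset.sum_congr rfl fun y _ => Finset.sum_congr rfl fun z _ => ?_
  show |f (merge e Q z y) - f (merge e Q (flip v z) y)| = _
  rw [merge_flip]

end

lemma merge_rot {ι β V : Type*} [DecidableEq β] [AddCommGroup V]
    (e : ι ≃ β × V) (Q : β) (v : V) (z : V → Bool) (y : ι → Bool) :
    merge e Q (z ∘ (fun a => a + v)) y = (merge e Q z y) ∘ (winRot e Q v) := by
  funext p
  by_cases h : (e p).1 = Q
  · simp [merge, winRot, h]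
  · simp [merge, winRot, h]

lemma tv_rot' {ι β V : Type*} [Fintype ι] [DecidableEq ι] [DecidableEq β]
    [Fintype V] [DecidableEq V] [AddCommGroup V]
    (e : ι ≃ β × V) (Q : β) (f : (ι → Bool) → ℝ) (v : V) :
    ∑ y, tv (fun z => f (merge e Q z y)) (fun x => x ∘ (fun a => a + v))
      = 2 ^ (Fintype.card V) * tv f (fun x => x ∘ winRot e Q v) := by
  unfold tv
  rw [← sum_merge e Q (fun x => |f x - f (x ∘ winRot e Q v)|)]
  refine Finset.sum_congr rfl fun y _ => Finset.sum_congr rfl fun z _ => ?_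
  show |f (merge e Q z y) - f (merge e Q (z ∘ (fun a => a + v)) y)| = _
  rw [merge_rot]

end BwinAux

open BwinAux

/-- Sum of `window` over all windows and all outside configurations. -/
theorem bwin {ι β V : Type*} [Fintype ι] [DecidableEq ι] [Fintype β] [DecidableEq β]
    [Fintype V] [DecidableEq V] [AddCommGroup V] (e : ι ≃ β × V)
    (f : (ι → Bool) → ℝ) (hf : IsCut f) (θ : ℝ) (hθ : 0 < θ) (m : ℕ) (hm : 1 ≤ m)
    (R : Finset V) (hR : R.Nonempty) :
    4 * (2 ^ (Fintype.card ι) * ∑ S : Finset ι, coef f S ^ 2 * ((S.image (fun p => (e p).1)).card : ℝ))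
      ≤ (3 ^ m * √θ + 1 / m + 1 / (R.card * θ)) * ∑ i, tv f (flip i)
        + 2 / (R.card * θ) * ∑ Q : β, ∑ v ∈ R, tv f (fun x => x ∘ winRot e Q v) := by
  have hV : (0 : ℝ) < 2 ^ (Fintype.card V) := by positivity
  have hQ : ∀ Q : β, 4 * (2 ^ (Fintype.card ι) * ∑ S : Finset ι,
        (if Q ∈ S.image (fun p => (e p).1) then coef f S ^ 2 else 0))
      ≤ (3 ^ m * √θ + 1 / m + 1 / (R.card * θ)) * ∑ v : V, tv f (flip (e.symm (Q, v)))
        + 2 / (R.card * θ) * ∑ v ∈ R, tv f (fun x => x ∘ winRot e Q v) := by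
    intro Q
    rw [← var_window e Q f, Finset.mul_sum]
    have h1 : ∀ y : ι → Bool, 4 * ∑ T ∈ (univ : Finset (Finset V)) with T ≠ ∅,
        coef (fun z => f (merge e Q z y)) T ^ 2
        ≤ (3 ^ m * √θ + 1 / m + 1 / (R.card * θ)) *
            (∑ v : V, tv (fun z => f (merge e Q z y)) (flip v)) / 2 ^ (Fintype.card V)
          + 2 / (R.card * θ) * (∑ v ∈ R, tv (fun z => f (merge e Q z y))
            (fun x => x ∘ (fun a => a + v))) / 2 ^ (Fintype.card V) := by
      intro y
      have h2 := window (fun z => f (merge e Q z y)) (fun z => hf _) θ hθ m hm R hR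
      refine h2.trans (le_of_eq ?_)
      unfold infl
      rw [← Finset.sum_div, ← Finset.sum_div]
      ring
    refine (Finset.sum_le_sum fun y _ => h1 y).trans (le_of_eq ?_)
    rw [Finset.sum_add_distrib, ← Finset.sum_div, ← Finset.sum_div, ← Finset.mul_sum,
      ← Finset.mul_sum, Finset.sum_comm]
    rw [Finset.sum_congr rfl fun v _ => tv_flip e Q f v, ← Finset.mul_sum]
    have h3 : ∑ y : ι → Bool, ∑ v ∈ R, tv (fun z => f (merge e Q z y))
        (fun x => x ∘ (fun a => a + v))
        = 2 ^ (Fintype.card V) * ∑ v ∈ R, tv f (fun x => x ∘ winRot e Q v) := by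
      rw [Finset.sum_comm, Finset.mul_sum]
      exact Finset.sum_congr rfl fun v _ => tv_rot' e Q f v
    rw [h3]
    field_simp
  have hsum := Finset.sum_le_sum fun Q (_ : Q ∈ (univ : Finset β)) => hQ Q
  rw [← Finset.mul_sum, ← Finset.mul_sum, Finset.sum_add_distrib, ← Finset.mul_sum,
    ← Finset.mul_sum] at hsum
  have h4 : ∑ Q : β, ∑ S : Finset ι, (if Q ∈ S.image (fun p => (e p).1) then coef f S ^ 2 else 0)
      = ∑ S : Finset ι, coef f S ^ 2 * ((S.image (fun p => (e p).1)).card : ℝ) := by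
    rw [Finset.sum_comm]
    refine Finset.sum_congr rfl fun S _ => ?_
    rw [Finset.sum_ite_mem, Finset.univ_inter, Finset.sum_const, nsmul_eq_mul, mul_comm]
  have h5 : ∑ Q : β, ∑ v : V, tv f (flip (e.symm (Q, v))) = ∑ i, tv f (flip i) := by
    rw [← Fintype.sum_prod_type' (f := fun Q v => tv f (flip (e.symm (Q, v))))]
    exact Fintype.sum_equiv e.symm _ _ fun w => rfl
  rw [h4, h5] at hsum
  exact hsum

end P238
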