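import Vale.Agent.P238.Basic

namespace P238
open Finset

/-- The number of relevant levels of `S` is at most the number of windows hit by `S`. -/
theorem count_rel {N : ℕ} (w l J : ℕ) (hw : 0 < w) (hl : 0 < l) (S : Finset (Fin N)) :
    ((range J).filter (fun j => ∃ p ∈ S, ∃ q ∈ S,
      (p : ℕ) / (w * l ^ (j + 1)) = (q : ℕ) / (w * l ^ (j + 1)) ∧
        (p : ℕ) / (w * l ^ j) ≠ (q : ℕ) / (w * l ^ j))).card
      ≤ (S.image (fun p : Fin N => (p : ℕ) / w)).card := by
  classical
  set H : ℕ → ℕ := fun j => (S.image (fun p : Fin N => (p : ℕ) / (w * l ^ j))).card with hH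
  set P : ℕ → Prop := fun j => ∃ p ∈ S, ∃ q ∈ S,
      (p : ℕ) / (w * l ^ (j + 1)) = (q : ℕ) / (w * l ^ (j + 1)) ∧
        (p : ℕ) / (w * l ^ j) ≠ (q : ℕ) / (w * l ^ j) with hP
  have himg : ∀ j, S.image (fun p : Fin N => (p : ℕ) / (w * l ^ (j + 1)))
      = (S.image (fun p : Fin N => (p : ℕ) / (w * l ^ j))).image (fun a => a / l) := by
    intro j
    rw [Finset.image_image]
    congr 1
    funext p
    simp only [Function.comp]
    rw [Nat.div_div_eq_div_mul, pow_succ, mul_assoc]
  have hstep : ∀ j, H (j + 1) + (if P j then 1 else 0) ≤ H j := by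
    intro j
    by_cases h : P j
    · rw [if_pos h]
      obtain ⟨p, hp, q, hq, h1, h2⟩ := h
      show (S.image (fun p : Fin N => (p : ℕ) / (w * l ^ (j + 1)))).card + 1 ≤ _
      rw [himg j]
      refine Nat.succ_le_of_lt (lt_of_le_of_ne Finset.card_image_le ?_)
      intro hcard
      have hinj := Finset.card_image_iff.mp hcard
      apply h2
      apply hinj
      · exact Finset.mem_coe.mpr (Finset.mem_image_of_mem _ hp)
      · exact Finset.mem_coe.mpr (Finset.mem_image_of_mem _ hq)
      · simp only
        rw [Nat.div_div_eq_div_mul, Nat.div_div_eq_div_mul, mul_assoc, ← pow_succ]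
        exact h1
    · rw [if_neg h]
      show (S.image (fun p : Fin N => (p : ℕ) / (w * l ^ (j + 1)))).card + 0 ≤ _
      rw [himg j]
      exact Finset.card_image_le
  have hmain : ∀ J, H J + ((range J).filter P).card ≤ H 0 := by
    intro J
    induction J with
    | zero => simp
    | succ J ih =>
      rw [Finset.range_add_one, Finset.filter_insert]
      have := hstep J
      by_cases h : P J
      · rw [if_pos h] at this ⊢
        rw [Finset.card_insert_of_notMem (by simp)]
        omega
      · rw [if_neg h] at this ⊢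
        omega
  have h0 : H 0 = (S.image (fun p : Fin N => (p : ℕ) / w)).card := by
    simp [hH]
  have := hmain J
  rw [h0] at this
  show ((range J).filter P).card ≤ _
  omega

end P238
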