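import Vale.Agent.P238.Basic

namespace P238
open Finset

theorem abs_ind_sub (a b t : ℝ) :
    |(if t < a then (1 : ℝ) else 0) - (if t < b then 1 else 0)| =
      (Set.Ico (min a b) (max a b)).indicator (fun _ => (1 : ℝ)) t := by
  by_cases h1 : t < a
  · by_cases h2 : t < b
    · rw [if_pos h1, if_pos h2, sub_self, abs_zero, Set.indicator_of_notMem]
      intro h
      exact absurd h.1 (not_le.mpr (lt_min h1 h2))
    · rw [if_pos h1, if_neg h2, sub_zero, abs_one, Set.indicator_of_mem]
      exact ⟨(min_le_right a b).trans (not_lt.mp h2), h1.trans_le (le_max_left a b)⟩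
  · by_cases h2 : t < b
    · rw [if_neg h1, if_pos h2, zero_sub, abs_neg, abs_one, Set.indicator_of_mem]
      exact ⟨(min_le_left a b).trans (not_lt.mp h1), h2.trans_le (le_max_right a b)⟩
    · rw [if_neg h1, if_neg h2, sub_self, abs_zero, Set.indicator_of_notMem]
      intro h
      exact absurd h.2 (not_lt.mpr (max_le (not_lt.mp h1) (not_lt.mp h2)))

theorem integrable_ind (a b : ℝ) : MeasureTheory.Integrable
    (fun t : ℝ => |(if t < a then (1 : ℝ) else 0) - (if t < b then 1 else 0)|) := by
  simp only [abs_ind_sub]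
  rw [MeasureTheory.integrable_indicator_iff measurableSet_Ico]
  exact MeasureTheory.integrableOn_const (by rw [Real.volume_Ico]; exact ENNReal.ofReal_ne_top)

theorem integral_ind (a b : ℝ) :
    ∫ t : ℝ, |(if t < a then (1 : ℝ) else 0) - (if t < b then 1 else 0)| = |a - b| := by
  simp only [abs_ind_sub]
  rw [MeasureTheory.integral_indicator measurableSet_Ico, MeasureTheory.setIntegral_const,
    MeasureTheory.Measure.real, Real.volume_Ico, smul_eq_mul, mul_one,
    ENNReal.toReal_ofReal (sub_nonneg.mpr min_le_max), max_sub_min_eq_abs, abs_sub_comm]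

theorem cut_cone_real {X K : Type*} [Fintype X] [Fintype K] (α : K → ℝ) (g : K → X → X)
    (H : ∀ f : X → ℝ, (∀ x, f x = 0 ∨ f x = 1) → ∑ k, α k * ∑ x, |f x - f (g k x)| ≤ 0)
    (u : X → ℝ) : ∑ k, α k * ∑ x, |u x - u (g k x)| ≤ 0 := by
  have e1 : ∀ x y, |u x - u y| =
      ∫ t : ℝ, |(if t < u x then (1 : ℝ) else 0) - (if t < u y then 1 else 0)| :=
    fun x y => (integral_ind _ _).symm
  have e2 : ∑ k, α k * ∑ x, |u x - u (g k x)| = ∫ t : ℝ, ∑ k, α k * ∑ x,
      |(if t < u x then (1 : ℝ) else 0) - (if t < u (g k x) then 1 else 0)| := by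
    rw [MeasureTheory.integral_finsetSum]
    · refine Finset.sum_congr rfl fun k _ => ?_
      rw [MeasureTheory.integral_const_mul, MeasureTheory.integral_finsetSum]
      · rw [Finset.sum_congr rfl fun x _ => e1 x (g k x)]
      · exact fun x _ => integrable_ind _ _
    · exact fun k _ => (MeasureTheory.integrable_finsetSum _
        fun x _ => integrable_ind _ _).const_mul _
  rw [e2]
  refine MeasureTheory.integral_nonpos fun t => ?_
  exact H (fun x => if t < u x then 1 else 0) fun x => by
    by_cases h : t < u x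
    · exact Or.inr (if_pos h)
    · exact Or.inl (if_neg h)

theorem hasSum_l1 (a b : lp (fun _ : ℕ => ℝ) 1) :
    HasSum (fun i => |a i - b i|) ‖a - b‖ := by
  have h := lp.hasSum_norm (p := 1) (by norm_num) (a - b)
  simpa using h

/-- A linear inequality between distances which holds for all cuts holds for all maps into
`ℓ₁`. -/
theorem cut_cone {X K : Type*} [Fintype X] [Fintype K] (α : K → ℝ) (g : K → X → X)
    (H : ∀ f : X → ℝ, (∀ x, f x = 0 ∨ f x = 1) → ∑ k, α k * ∑ x, |f x - f (g k x)| ≤ 0)
    (F : X → lp (fun _ : ℕ => ℝ) 1) :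
    ∑ k, α k * ∑ x, ‖F x - F (g k x)‖ ≤ 0 := by
  have h1 : HasSum (fun i => ∑ k, α k * ∑ x, |F x i - F (g k x) i|)
      (∑ k, α k * ∑ x, ‖F x - F (g k x)‖) :=
    hasSum_sum fun k _ => (hasSum_sum fun x _ => hasSum_l1 _ _).mul_left _
  exact hasSum_le (fun i => cut_cone_real α g H fun x => F x i) h1 hasSum_zero

end P238
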