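import Vale.Agent.P238.Basic

namespace P238
open Finset
variable {α : Type*}

theorem reach_trans {k l : ℕ} {x y z : List α} (h : Reach k x y) (h' : Reach l y z) :
    Reach (k + l) x z := by
  induction h' with
  | refl _ => exact h
  | step _ e ih => exact Reach.step (ih h) e

lemma edit_context {x y : List α} (a b : List α) (h : Edit x y) :
    Edit (a ++ x ++ b) (a ++ y ++ b) := by
  cases h with
  | ins u v c => simpa using Edit.ins (a ++ u) (v ++ b) c
  | del u v c => simpa using Edit.del (a ++ u) (v ++ b) c
  | sub u v c d => simpa using Edit.sub (a ++ u) (v ++ b) c d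

lemma reach_context {k : ℕ} {x y : List α} (a b : List α) (h : Reach k x y) :
    Reach k (a ++ x ++ b) (a ++ y ++ b) := by
  induction h with
  | refl _ => exact Reach.refl _
  | step _ e ih => exact Reach.step ih (edit_context a b e)

theorem reach_append {k l : ℕ} {x y x' y' : List α} (h : Reach k x y) (h' : Reach l x' y') :
    Reach (k + l) (x ++ x') (y ++ y') := by
  have h1 := reach_context [] x' h
  have h2 := reach_context y [] h'
  simp only [List.nil_append, List.append_nil] at h1 h2
  exact reach_trans h1 h2

lemma reach_nil_right (x : List α) : Reach x.length x [] := by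
  induction x with
  | nil => exact Reach.refl _
  | cons a x ih =>
    have h : Edit (a :: x) x := Edit.del [] x a
    have h1 : Reach 1 (a :: x) x := Reach.step (Reach.refl _) h
    have := reach_trans h1 ih
    rw [List.length_cons, Nat.add_comm]
    exact this

lemma reach_nil_left (x : List α) : Reach x.length [] x := by
  induction x with
  | nil => exact Reach.refl _
  | cons a x ih =>
    rw [List.length_cons]
    exact Reach.step ih (Edit.ins [] x a)

/-- Any two words can be transformed into each other, so the infimum is attained. -/
theorem reach_editDist (x y : List α) : Reach (editDist x y) x y := by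
  have hne : {k | Reach k x y}.Nonempty :=
    ⟨x.length + y.length, reach_trans (reach_nil_right x) (reach_nil_left y)⟩
  exact Nat.sInf_mem hne

theorem editDist_le {k : ℕ} {x y : List α} (h : Reach k x y) : editDist x y ≤ k :=
  Nat.sInf_le h

theorem editDist_append (x y x' y' : List α) :
    editDist (x ++ x') (y ++ y') ≤ editDist x y + editDist x' y' :=
  editDist_le (reach_append (reach_editDist x y) (reach_editDist x' y'))

theorem editDist_self (x : List α) : editDist x x = 0 :=
  Nat.le_zero.mp (editDist_le (Reach.refl x))

theorem editDist_pos {x y : List α} (h : x ≠ y) : 0 < editDist x y := by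
  by_contra hc
  have h0 : editDist x y = 0 := by omega
  have h1 := reach_editDist x y
  rw [h0] at h1
  cases h1
  exact h rfl

/-- rotating a list by `t` costs at most `2 t`. -/
theorem editDist_swap (u v : List α) : editDist (u ++ v) (v ++ u) ≤ 2 * u.length := by
  have h1 := reach_append (reach_nil_right u) (Reach.refl v)
  have h2 := reach_append (Reach.refl v) (reach_nil_left u)
  simp only [List.nil_append, List.append_nil] at h1 h2
  have := editDist_le (reach_trans h1 h2)
  omega

theorem editDist_swap' (u v : List α) : editDist (u ++ v) (v ++ u) ≤ 2 * v.length := by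
  have h1 := reach_append (Reach.refl u) (reach_nil_right v)
  have h2 := reach_append (reach_nil_left v) (Reach.refl u)
  simp only [List.nil_append, List.append_nil] at h1 h2
  have := editDist_le (reach_trans h1 h2)
  omega

lemma sublist_del {u v : List α} {a : α} {l : List α} (h : l.Sublist (u ++ a :: v)) :
    ∃ l' : List α, l'.Sublist l ∧ l'.Sublist (u ++ v) ∧ l.length ≤ l'.length + 1 := by
  obtain ⟨l1, l2, rfl, h1, h2⟩ := List.sublist_append_iff.mp h
  rcases List.sublist_cons_iff.mp h2 with h3 | ⟨r, rfl, h3⟩
  · exact ⟨l1 ++ l2, List.Sublist.refl _, h1.append h3, by simp⟩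
  · exact ⟨l1 ++ r, (List.Sublist.refl l1).append (List.sublist_cons_self a r), h1.append h3,
      by simp; omega⟩

lemma sublist_edit {y z l : List α} (e : Edit y z) (h : l.Sublist y) :
    ∃ l' : List α, l'.Sublist l ∧ l'.Sublist z ∧ l.length ≤ l'.length + 1 := by
  cases e with
  | ins u v a =>
    exact ⟨l, List.Sublist.refl _,
      h.trans ((List.Sublist.refl u).append (List.sublist_cons_self a v)), by omega⟩
  | del u v a => exact sublist_del h
  | sub u v a b =>
    obtain ⟨l', h1, h2, h3⟩ := sublist_del h
    exact ⟨l', h1, h2.trans ((List.Sublist.refl u).append (List.sublist_cons_self b v)), h3⟩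

/-- A cheap edit script leaves a long common subsequence. -/
theorem reach_sublist {k : ℕ} {x y : List α} (h : Reach k x y) :
    ∃ l : List α, l.Sublist x ∧ l.Sublist y ∧ x.length ≤ l.length + k := by
  induction h with
  | refl x => exact ⟨x, List.Sublist.refl _, List.Sublist.refl _, by omega⟩
  | step _ e ih =>
    obtain ⟨l, h1, h2, h3⟩ := ih
    obtain ⟨l', h4, h5, h6⟩ := sublist_edit e h2
    exact ⟨l', h4.trans h1, h5, by omega⟩

lemma take_sublist {x z l : List α} (h : l.Sublist (x ++ z)) :
    (l.take (l.length - z.length)).Sublist x := by
  obtain ⟨l1, l2, rfl, h1, h2⟩ := List.sublist_append_iff.mp h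
  have h3 : l2.length ≤ z.length := h2.length_le
  have h4 : (l1 ++ l2).length - z.length ≤ l1.length := by simp; omega
  rw [List.take_append_of_le_length h4]
  exact (List.take_sublist _ _).trans h1

/-- the same with a common suffix `z`. -/
theorem reach_sublist_pad {k : ℕ} {x y z : List α} (h : Reach k (x ++ z) (y ++ z)) :
    ∃ l : List α, l.Sublist x ∧ l.Sublist y ∧ x.length ≤ l.length + k := by
  obtain ⟨l, h1, h2, h3⟩ := reach_sublist h
  refine ⟨l.take (l.length - z.length), take_sublist h1, take_sublist h2, ?_⟩
  rw [List.length_take]
  simp at h3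
  omega

end P238
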