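import Vale.Agent.P238.Edit

namespace P238
open Finset

/-- words determined by their values outside of `D` -/
lemma far_card {N : ℕ} (X : Finset (Word N)) (D : Finset (Fin N))
    (h : ∀ p ∈ D, ∃ q < p, ∀ x ∈ X, x p = x q) : X.card ≤ 2 ^ (N - D.card) := by
  classical
  have h1 : X.card ≤ (Finset.univ : Finset ({p // p ∉ D} → Bool)).card := by
    refine Finset.card_le_card_of_injOn (fun x p => x p.1) (fun _ _ => Finset.mem_coe.mpr
      (Finset.mem_univ _)) ?_
    intro x hx y hy hxy
    have key : ∀ k : ℕ, ∀ p : Fin N, (p : ℕ) = k → x p = y p := by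
      intro k
      induction k using Nat.strong_induction_on with
      | _ k ih =>
        intro p hp
        by_cases hpD : p ∈ D
        · obtain ⟨q, hq, hq'⟩ := h p hpD
          rw [hq' x hx, hq' y hy]
          exact ih q (by rw [← hp]; exact hq) q rfl
        · exact congrFun hxy ⟨p, hpD⟩
    funext p
    exact key p p rfl
  refine h1.trans (le_of_eq ?_)
  rw [Finset.card_univ, Fintype.card_fun, Fintype.card_bool, Fintype.card_subtype_compl,
    Fintype.card_fin, Fintype.card_coe]

/-- a subsequence is given by a set of positions -/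
lemma far_sub {N M : ℕ} (x : Word N) (l : List Bool) (h : l.Sublist (List.ofFn x))
    (hl : l.length = M) : ∃ A : {s : Finset (Fin N) // s.card = M},
    ∀ k : Fin M, x (A.1.orderEmbOfFin A.2 k) = l.get (Fin.cast hl.symm k) := by
  classical
  obtain ⟨f, hf⟩ := List.sublist_iff_exists_fin_orderEmbedding_get_eq.mp h
  set g : Fin M → Fin N := fun k =>
    Fin.cast (List.length_ofFn (f := x)) (f (Fin.cast hl.symm k)) with hg
  have hmono : StrictMono g := by
    intro a b hab
    exact f.strictMono (show Fin.cast hl.symm a < Fin.cast hl.symm b from hab)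
  have hcard : (univ.image g).card = M := by
    rw [Finset.card_image_of_injective _ hmono.injective, Finset.card_univ, Fintype.card_fin]
  refine ⟨⟨univ.image g, hcard⟩, fun k => ?_⟩
  have h1 := Finset.orderEmbOfFin_unique hcard (f := g)
    (fun k => Finset.mem_image_of_mem g (Finset.mem_univ k)) hmono
  rw [← congrFun h1 k, hf]
  simp only [hg, List.get_ofFn]

/-- the words with prescribed positions of a common subsequence with their image -/
lemma far_pair {K : ℕ} (T : Equiv.Perm (Fin (1024 * K)))
    (hT : ∀ p, T (T p) = p) (hT' : ∀ p, T p ≠ p)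
    (i i' : Fin (1023 * K) → Fin (1024 * K)) (hi : StrictMono i) (hi' : StrictMono i')
    (X : Finset (Word (1024 * K))) (hX : ∀ x ∈ X, ∀ l, x (i l) = x (T (i' l))) :
    X.card ≤ 2 ^ (1024 * K - 255 * K) := by
  classical
  set L0 := univ.filter fun l => i l = T (i' l) with hL0
  set L1 := univ.filter fun l => T (i' l) < i l with hL1
  set L2 := univ.filter fun l => i l < T (i' l) with hL2
  have hsum : L0.card + L1.card + L2.card = 1023 * K := by
    have h1 : L0.card + (univ.filter fun l => ¬ i l = T (i' l)).card = 1023 * K := by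
      rw [hL0, Finset.card_filter_add_card_filter_not, Finset.card_univ, Fintype.card_fin]
    have h2 : L1.card + L2.card = (univ.filter fun l => ¬ i l = T (i' l)).card := by
      rw [hL1, hL2, ← Finset.card_union_of_disjoint]
      · congr 1
        ext l
        simp only [Finset.mem_union, Finset.mem_filter, Finset.mem_univ, true_and]
        constructor
        · rintro (h | h)
          · exact ne_of_gt h
          · exact ne_of_lt h
        · intro h
          exact (lt_or_gt_of_ne h).symm
      · rw [Finset.disjoint_left]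
        intro l h1 h2
        have := (Finset.mem_filter.mp h1).2
        have := (Finset.mem_filter.mp h2).2
        exact absurd this (by omega)
    omega
  have hzero : 2 * L0.card ≤ 1024 * K := by
    have hdisj : Disjoint (L0.image i) ((L0.image i).image T) := by
      rw [Finset.disjoint_left]
      intro p hp hp'
      obtain ⟨q, hq, hqp⟩ := Finset.mem_image.mp hp'
      obtain ⟨a, ha, hap⟩ := Finset.mem_image.mp hp
      obtain ⟨b, hb, hbq⟩ := Finset.mem_image.mp hq
      have h1 : i a = T (i' a) := (Finset.mem_filter.mp ha).2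
      have h2 : i b = T (i' b) := (Finset.mem_filter.mp hb).2
      -- i a = p = T q = T (i b)
      have h3 : i a = T (i b) := by rw [hap, hbq, hqp]
      have h4 : i' a = i b := T.injective (by rw [← h1, h3])
      have h5 : i' b = i a := by rw [h3, h2, hT]
      rcases lt_trichotomy a b with hab | hab | hab
      · have e1 := hi hab
        have e2 := hi' hab
        rw [h4, h5] at e2
        exact absurd e1 (by omega)
      · rw [hab] at h3
        exact hT' _ h3.symm
      · have e1 := hi hab
        have e2 := hi' hab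
        rw [h4, h5] at e2
        exact absurd e1 (by omega)
    have h1 := Finset.card_union_of_disjoint hdisj
    rw [Finset.card_image_of_injective _ T.injective,
      Finset.card_image_of_injective _ hi.injective] at h1
    have h2 := Finset.card_le_univ (L0.image i ∪ (L0.image i).image T)
    rw [Fintype.card_fin] at h2
    omega
  have hcase : 255 * K ≤ L1.card ∨ 255 * K ≤ L2.card := by omega
  rcases hcase with hc | hc
  · have h1 := far_card X (L1.image i) (by
      intro p hp
      obtain ⟨l, hl, rfl⟩ := Finset.mem_image.mp hp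
      exact ⟨T (i' l), (Finset.mem_filter.mp hl).2, fun x hx => hX x hx l⟩)
    rw [Finset.card_image_of_injective _ hi.injective] at h1
    exact h1.trans (Nat.pow_le_pow_right (by norm_num) (by omega))
  · have h1 := far_card X (L2.image fun l => T (i' l)) (by
      intro p hp
      obtain ⟨l, hl, rfl⟩ := Finset.mem_image.mp hp
      exact ⟨i l, (Finset.mem_filter.mp hl).2, fun x hx => (hX x hx l).symm⟩)
    have h2 : (L2.image fun l => T (i' l)).card = L2.card :=
      Finset.card_image_of_injective L2 (T.injective.comp hi'.injective)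
    rw [h2] at h1
    exact h1.trans (Nat.pow_le_pow_right (by norm_num) (by omega))

lemma far_choose {K : ℕ} (hK : 1 ≤ K) : (1024 * K).choose (1023 * K) ≤ 2 ^ (12 * K) := by
  have h0 : (1024 * K).choose (1023 * K) = (1024 * K).choose K := by
    rw [← Nat.choose_symm (show K ≤ 1024 * K by omega)]
    congr 1
    omega
  rw [h0]
  have h1 : (((1024 * K).choose K : ℕ) : ℝ) ≤ ((1024 * K : ℕ) : ℝ) ^ K / (K.factorial : ℝ) :=
    Nat.choose_le_pow_div K (1024 * K)
  have h2 : (K : ℝ) ^ K / (K.factorial : ℝ) ≤ Real.exp K :=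
    Real.pow_div_factorial_le_exp (K : ℝ) (Nat.cast_nonneg K) K
  have h3 : Real.exp (K : ℝ) ≤ 4 ^ K := by
    have : Real.exp (K : ℝ) = Real.exp 1 ^ K := by
      rw [← Real.exp_nat_mul, mul_one]
    rw [this]
    exact pow_le_pow_left₀ (Real.exp_pos _).le (by linarith [Real.exp_one_lt_d9]) K
  have h4 : (((1024 * K).choose K : ℕ) : ℝ) ≤ 2 ^ (12 * K) := by
    calc (((1024 * K).choose K : ℕ) : ℝ) ≤ ((1024 * K : ℕ) : ℝ) ^ K / (K.factorial : ℝ) := h1
      _ = 1024 ^ K * ((K : ℝ) ^ K / (K.factorial : ℝ)) := by
          push_cast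
          rw [mul_pow, mul_div_assoc]
      _ ≤ 1024 ^ K * 4 ^ K := by
          refine mul_le_mul_of_nonneg_left (h2.trans h3) (by positivity)
      _ = 2 ^ (12 * K) := by
          rw [← mul_pow, pow_mul]
          norm_num
  exact_mod_cast h4

/-- For every fixed-point-free involution `T` of the positions, a random word `x` is at edit
distance at least a constant times `N` from `x ∘ T`, on average. -/
theorem far (K : ℕ) (hK : 1 ≤ K) (T : Equiv.Perm (Fin (1024 * K))) (hT : ∀ p, T (T p) = p)
    (hT' : ∀ p, T p ≠ p) (z : List Bool) :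
    (K : ℝ) / 2 * 2 ^ (1024 * K) ≤
      ∑ x : Word (1024 * K), (editDist (List.ofFn x ++ z) (List.ofFn (x ∘ T) ++ z) : ℝ) := by
  set d : Word (1024 * K) → ℕ := fun x => editDist (List.ofFn x ++ z) (List.ofFn (x ∘ T) ++ z) with hd
  set Bad := univ.filter fun x : Word (1024 * K) => d x ≤ K with hBad
  let P := {s : Finset (Fin (1024 * K)) // s.card = 1023 * K}
  have hcov : Bad ⊆ (univ : Finset (P × P)).biUnion fun q => univ.filter fun x : Word (1024 * K) =>
      ∀ l, x (q.1.1.orderEmbOfFin q.1.2 l) = x (T (q.2.1.orderEmbOfFin q.2.2 l)) := by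
    intro x hx
    have hdx : d x ≤ K := (Finset.mem_filter.mp hx).2
    obtain ⟨l, h1, h2, h3⟩ := reach_sublist_pad (reach_editDist (List.ofFn x ++ z)
      (List.ofFn (x ∘ T) ++ z))
    rw [List.length_ofFn] at h3
    have h4 : 1023 * K ≤ l.length := by
      have : 1024 * K ≤ l.length + d x := h3
      omega
    have hlen : (l.take (1023 * K)).length = 1023 * K := by
      rw [List.length_take]
      omega
    obtain ⟨A, hA⟩ := far_sub x (l.take (1023 * K)) ((List.take_sublist _ _).trans h1) hlen
    obtain ⟨B, hB⟩ := far_sub (x ∘ T) (l.take (1023 * K)) ((List.take_sublist _ _).trans h2) hlen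
    refine Finset.mem_biUnion.mpr ⟨(A, B), Finset.mem_univ _, Finset.mem_filter.mpr
      ⟨Finset.mem_univ _, fun k => ?_⟩⟩
    exact (hA k).trans (hB k).symm
  have hBadcard : Bad.card ≤ 2 ^ (12 * K) * 2 ^ (12 * K) * 2 ^ (1024 * K - 255 * K) := by
    refine (Finset.card_le_card hcov).trans (Finset.card_biUnion_le.trans ?_)
    refine (Finset.sum_le_card_nsmul _ _ (2 ^ (1024 * K - 255 * K)) fun q _ => ?_).trans ?_
    · exact far_pair T hT hT' _ _ (q.1.1.orderEmbOfFin q.1.2).strictMono
        (q.2.1.orderEmbOfFin q.2.2).strictMono _ fun x hx => (Finset.mem_filter.mp hx).2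
    · rw [smul_eq_mul, Finset.card_univ, Fintype.card_prod, Fintype.card_finset_len,
        Fintype.card_fin]
      exact Nat.mul_le_mul_right _ (Nat.mul_le_mul (far_choose hK) (far_choose hK))
  have hhalf : 2 * Bad.card ≤ 2 ^ (1024 * K) := by
    refine (Nat.mul_le_mul_left 2 hBadcard).trans ?_
    have e1 : 2 * (2 ^ (12 * K) * 2 ^ (12 * K) * 2 ^ (1024 * K - 255 * K)) =
        2 ^ (1 + 12 * K + 12 * K + (1024 * K - 255 * K)) := by
      rw [pow_add, pow_add, pow_add]
      ring
    rw [e1]
    exact Nat.pow_le_pow_right (by norm_num) (by omega)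
  have hcompl : (univ.filter fun x : Word (1024 * K) => ¬ d x ≤ K).card + Bad.card = 2 ^ (1024 * K) := by
    have := Finset.card_filter_add_card_filter_not (s := (univ : Finset (Word (1024 * K))))
      (fun x => d x ≤ K)
    rw [Finset.card_univ, Fintype.card_fun, Fintype.card_bool, Fintype.card_fin, ← hBad] at this
    omega
  have hgood : 2 ^ (1024 * K) ≤ 2 * (univ.filter fun x : Word (1024 * K) => ¬ d x ≤ K).card := by omega
  have h5 : K * (univ.filter fun x : Word (1024 * K) => ¬ d x ≤ K).card ≤ ∑ x : Word (1024 * K), d x := by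
    calc K * (univ.filter fun x : Word (1024 * K) => ¬ d x ≤ K).card
        = ∑ x ∈ univ.filter (fun x : Word (1024 * K) => ¬ d x ≤ K), K := by
          rw [Finset.sum_const, smul_eq_mul, mul_comm]
      _ ≤ ∑ x ∈ univ.filter (fun x : Word (1024 * K) => ¬ d x ≤ K), d x :=
          Finset.sum_le_sum fun x hx => by
            have := (Finset.mem_filter.mp hx).2
            omega
      _ ≤ ∑ x : Word (1024 * K), d x := Finset.sum_le_sum_of_subset (Finset.filter_subset _ _)
  have h6 : K * 2 ^ (1024 * K) ≤ 2 * ∑ x : Word (1024 * K), d x := by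
    calc K * 2 ^ (1024 * K) ≤ K * (2 * (univ.filter fun x : Word (1024 * K) => ¬ d x ≤ K).card) :=
          Nat.mul_le_mul_left _ hgood
      _ = 2 * (K * (univ.filter fun x : Word (1024 * K) => ¬ d x ≤ K).card) := by ring
      _ ≤ _ := Nat.mul_le_mul_left _ h5
  have h7 : (K : ℝ) * 2 ^ (1024 * K) ≤ 2 * ∑ x : Word (1024 * K), (d x : ℝ) := by exact_mod_cast h6
  have h8 : (∑ x : Word (1024 * K), (editDist (List.ofFn x ++ z) (List.ofFn (x ∘ T) ++ z) : ℝ)) =
      ∑ x : Word (1024 * K), (d x : ℝ) := rfl
  rw [h8]
  linarith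

end P238
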