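import Vale.Agent.P238.Basic

namespace P238

/-- The space `ℓ₁` of absolutely summable real sequences. -/
abbrev L1 := lp (fun _ : ℕ => ℝ) 1

/-- The expansion factor `max_{x ≠ y} ‖f x - f y‖ / ρ(x,y)`. -/
noncomputable def expansion {X : Type*} (ρ : X → X → ℝ) (f : X → L1) : ℝ :=
  ⨆ p : {p : X × X // p.1 ≠ p.2}, ‖f p.1.1 - f p.1.2‖ / ρ p.1.1 p.1.2

/-- The contraction factor `max_{x ≠ y} ρ(x,y) / ‖f x - f y‖`. -/
noncomputable def contraction {X : Type*} (ρ : X → X → ℝ) (f : X → L1) : ℝ :=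
  ⨆ p : {p : X × X // p.1 ≠ p.2}, ρ p.1.1 p.1.2 / ‖f p.1.1 - f p.1.2‖

/-- The `ℓ₁`-distortion of `(X, ρ)`: the infimum over injective maps `f : X → ℓ₁` of the product
of the expansion and the contraction factor. -/
noncomputable def c1 {X : Type*} (ρ : X → X → ℝ) : ℝ :=
  ⨅ f : {f : X → L1 // Function.Injective f}, expansion ρ f.1 * contraction ρ f.1

end P238
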