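import Vale.Agent.P238.Main3
import Vale.Agent.P238.Stat

namespace P238
open Finset

lemma four_mul_le_two_pow (q : ℕ) (hq : 5 ≤ q) : 4 * (q + 1) ≤ 2 ^ q := by
  induction q, hq using Nat.le_induction with
  | base => norm_num
  | succ q hq ih =>
    rw [pow_succ]
    omega

lemma log_le_div (L : ℕ) (hL : 64 ≤ L) : Nat.log 2 L ≤ L / 8 := by
  have h1 : L < 2 ^ (L / 8 + 1) := by
    have h2 := four_mul_le_two_pow (L / 8) (by omega)
    rw [pow_succ]
    omega
  have := Nat.log_lt_of_lt_pow (by omega) h1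
  omega

lemma params (L : ℕ) (hL : 64 ≤ L) : ∃ m b J : ℕ, 1 ≤ m ∧ 2 ≤ b ∧ 1 ≤ J ∧
    32 * m + b * J ≤ L ∧ (b : ℝ) ≤ 2 * (Real.log L / Real.log 2 + 1) ∧
    (2 : ℝ) / 2 ^ b + 3 / (m * J) ≤ 1538 * b / (L : ℝ) ^ 2 := by
  set t : ℕ := Nat.log 2 L with ht
  have hLpos : (0 : ℝ) < L := by exact_mod_cast (by omega : 0 < L)
  have ht1 := log_le_div L hL
  rw [← ht] at ht1
  have htL : 2 ^ t ≤ L := Nat.pow_log_le_self 2 (by omega)
  have htL' : L < 2 ^ (t + 1) := Nat.lt_pow_succ_log_self (by norm_num) L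
  have ht6 : 1 ≤ t := by
    by_contra hc
    have : t = 0 := by omega
    rw [this] at htL'
    norm_num at htL'
    omega
  refine ⟨L / 64, 2 * (t + 1), L / (4 * (t + 1)), by omega, by omega, ?_, ?_, ?_, ?_⟩
  · rw [Nat.le_div_iff_mul_le (by omega)]
    omega
  · have h1 : 4 * (t + 1) * (L / (4 * (t + 1))) ≤ L := Nat.mul_div_le _ _
    have h2 : 2 * (2 * (t + 1) * (L / (4 * (t + 1)))) = 4 * (t + 1) * (L / (4 * (t + 1))) := by
      ring
    omega
  · have h1 : (t : ℝ) ≤ Real.log L / Real.log 2 := by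
      rw [le_div_iff₀ (Real.log_pos (by norm_num)), ← Real.log_pow]
      exact Real.log_le_log (by positivity) (by exact_mod_cast htL)
    push_cast
    linarith
  · -- the main estimate
    have hbpos : (0 : ℝ) < (2 * (t + 1) : ℕ) := by positivity
    have h1 : (L : ℝ) ^ 2 ≤ 2 ^ (2 * (t + 1)) := by
      rw [mul_comm 2 (t + 1), pow_mul]
      refine pow_le_pow_left₀ hLpos.le ?_ 2
      exact_mod_cast htL'.le
    have h2 : (L : ℝ) / 128 ≤ ((L / 64 : ℕ) : ℝ) := by
      have : L ≤ 128 * (L / 64) := by omega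
      have h' : (L : ℝ) ≤ 128 * ((L / 64 : ℕ) : ℝ) := by exact_mod_cast this
      linarith
    have h3 : (L : ℝ) / (8 * (t + 1)) ≤ ((L / (4 * (t + 1)) : ℕ) : ℝ) := by
      have h4 : 1 ≤ L / (4 * (t + 1)) := by
        rw [Nat.le_div_iff_mul_le (by omega)]
        omega
      have h5 : L < 4 * (t + 1) * (L / (4 * (t + 1)) + 1) := by
        have := Nat.lt_mul_div_succ L (show 0 < 4 * (t + 1) by omega)
        exact this
      have h6 : L ≤ 8 * (t + 1) * (L / (4 * (t + 1))) := by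
        nlinarith
      rw [div_le_iff₀ (by positivity)]
      have h7 : (L : ℝ) ≤ 8 * (t + 1) * ((L / (4 * (t + 1)) : ℕ) : ℝ) := by exact_mod_cast h6
      linarith
    have h4 : (0 : ℝ) < L / 128 := by positivity
    have h5 : (0 : ℝ) < (L : ℝ) / (8 * (t + 1)) := by positivity
    have h6 : (3 : ℝ) / (((L / 64 : ℕ) : ℝ) * ((L / (4 * (t + 1)) : ℕ) : ℝ))
        ≤ 3 / ((L : ℝ) / 128 * (L / (8 * (t + 1)))) := by
      refine div_le_div_of_nonneg_left (by norm_num) (by positivity) ?_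
      exact mul_le_mul h2 h3 h5.le (h4.le.trans h2)
    have h7 : (2 : ℝ) / 2 ^ (2 * (t + 1)) ≤ 2 / (L : ℝ) ^ 2 :=
      div_le_div_of_nonneg_left (by norm_num) (by positivity) h1
    have h8 : (3 : ℝ) / ((L : ℝ) / 128 * (L / (8 * (t + 1)))) = 1536 * (2 * (t + 1)) / (L : ℝ) ^ 2 := by
      field_simp
      ring
    have h9 : 2 / (L : ℝ) ^ 2 + 1536 * (2 * (t + 1)) / (L : ℝ) ^ 2
        ≤ 1538 * ((2 * (t + 1) : ℕ) : ℝ) / (L : ℝ) ^ 2 := by
      rw [← add_div]
      refine div_le_div_of_nonneg_right ?_ (by positivity)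
      push_cast
      have : (0 : ℝ) ≤ t := by positivity
      linarith
    linarith

lemma ofFn_inj {n : ℕ} {x y : Word n} (h : x ≠ y) : List.ofFn x ≠ List.ofFn y :=
  fun hc => h (List.ofFn_injective hc)

lemma ed_pos {n : ℕ} {x y : Word n} (h : x ≠ y) : (0 : ℝ) < (ed x y : ℝ) := by
  exact_mod_cast editDist_pos (ofFn_inj h)

/-- lower bound for a given embedding -/
lemma lower (n : ℕ) (hn : 2 ^ 64 ≤ n) (F : Word n → L1) (A B : ℝ) (hA0 : 0 ≤ A) (hB0 : 0 ≤ B)
    (hA : ∀ x y, ‖F x - F y‖ ≤ A * ed x y) (hB : ∀ x y, (ed x y : ℝ) ≤ B * ‖F x - F y‖) :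
    (1 / 101000000 : ℝ) * (Real.log n) ^ 2 / Real.log (Real.log n) ≤ A * B := by
  set L : ℕ := Nat.log 2 n with hL
  have hn0 : n ≠ 0 := by
    have : 0 < 2 ^ 64 := by positivity
    omega
  have hL64 : 64 ≤ L := by
    rw [hL]
    exact Nat.le_log_of_pow_le (by norm_num) hn
  obtain ⟨m, b, J, hm, hb, hJ, hsum, hbL, hest⟩ := params L hL64
  have hN : 2 ^ (32 * m) * (2 ^ b) ^ J ≤ n := by
    rw [← pow_mul, ← pow_add]
    exact (Nat.pow_le_pow_right (by norm_num) hsum).trans (Nat.pow_log_le_self 2 hn0)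
  have hcore := core m b J n hm hb hJ hN F A B hA0 hB0 hA hB
  have hLpos : (0 : ℝ) < L := by exact_mod_cast (by omega : 0 < L)
  have hbpos : (0 : ℝ) < b := by exact_mod_cast (by omega : 0 < b)
  have hAB : 0 ≤ A * B := mul_nonneg hA0 hB0
  have h1 : (1 : ℝ) / 2048 ≤ A * B * (1538 * b / (L : ℝ) ^ 2) :=
    hcore.trans (mul_le_mul_of_nonneg_left hest hAB)
  have h2 : (L : ℝ) ^ 2 / (2048 * 1538 * b) ≤ A * B := by
    rw [div_le_iff₀ (by positivity)]
    have h3 : A * B * (1538 * b / (L : ℝ) ^ 2) = A * B * (1538 * b) / (L : ℝ) ^ 2 := by ring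
    rw [h3, le_div_iff₀ (by positivity)] at h1
    linarith
  -- logarithms
  have hlog2 : 0.6931 < Real.log 2 := by linarith [Real.log_two_gt_d9]
  have hlog2' : Real.log 2 < 0.6932 := by linarith [Real.log_two_lt_d9]
  have hnpos : (0 : ℝ) < n := by exact_mod_cast Nat.pos_of_ne_zero hn0
  have h3 : (L : ℝ) * Real.log 2 ≤ Real.log n := by
    rw [← Real.log_pow]
    exact Real.log_le_log (by positivity) (by exact_mod_cast Nat.pow_log_le_self 2 hn0)
  have h4 : Real.log n ≤ (L + 1) * Real.log 2 := by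
    have h5 : n < 2 ^ (L + 1) := Nat.lt_pow_succ_log_self (by norm_num) n
    have h6 : Real.log n ≤ Real.log (2 ^ (L + 1) : ℝ) :=
      Real.log_le_log hnpos (by exact_mod_cast h5.le)
    rw [Real.log_pow] at h6
    push_cast at h6
    exact h6
  have hL64' : (64 : ℝ) ≤ L := by exact_mod_cast hL64
  set ℓ : ℝ := Real.log n with hℓ
  have h5 : ℓ ≤ L := by nlinarith
  have h6 : 44 ≤ ℓ := by nlinarith
  have h7 : (L : ℝ) ≤ 1.443 * ℓ := by nlinarith
  have hℓpos : 0 < ℓ := by linarith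
  -- log log n
  have hexp : Real.exp 1 < 2.7182818286 := Real.exp_one_lt_d9
  have h8 : 1 ≤ Real.log ℓ := by
    rw [Real.le_log_iff_exp_le hℓpos]
    linarith
  have h9 : Real.log L ≤ Real.log ℓ + 0.443 := by
    have h10 : Real.log L ≤ Real.log (1.443 * ℓ) := Real.log_le_log hLpos h7
    rw [Real.log_mul (by norm_num) hℓpos.ne'] at h10
    have h11 : Real.log 1.443 ≤ 1.443 - 1 := Real.log_le_sub_one_of_pos (by norm_num)
    linarith
  have h10 : (b : ℝ) ≤ 8 * Real.log ℓ := by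
    have h11 : Real.log L / Real.log 2 ≤ 1.443 * (Real.log ℓ + 0.443) := by
      rw [div_le_iff₀ (by linarith)]
      have h12 : 0 ≤ Real.log ℓ + 0.443 := by linarith
      nlinarith
    linarith
  have h11 : ℓ ^ 2 / (2048 * 1538 * (8 * Real.log ℓ)) ≤ (L : ℝ) ^ 2 / (2048 * 1538 * b) := by
    have h12 : ℓ ^ 2 ≤ (L : ℝ) ^ 2 := pow_le_pow_left₀ hℓpos.le h5 2
    refine div_le_div₀ (by positivity) h12 (by positivity) ?_
    linarith
  have h12 : (1 / 101000000 : ℝ) * ℓ ^ 2 / Real.log ℓ ≤ ℓ ^ 2 / (2048 * 1538 * (8 * Real.log ℓ)) := by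
    have h13 : 0 < Real.log ℓ := by linarith
    rw [div_le_div_iff₀ h13 (by positivity)]
    have h14 : 0 ≤ ℓ ^ 2 * Real.log ℓ := by positivity
    nlinarith
  exact h12.trans (h11.trans h2)

lemma exists_inj (n : ℕ) : Nonempty {f : Word n → L1 // Function.Injective f} := by
  classical
  refine ⟨⟨fun x => lp.single 1 (0 : ℕ) (((Fintype.equivFin (Word n) x : ℕ)) : ℝ), ?_⟩⟩
  intro x y hxy
  have h1 := congrArg (fun u : L1 => (u : ℕ → ℝ) 0) hxy
  simp only [lp.single_apply_self] at h1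
  have h2 : (Fintype.equivFin (Word n) x : ℕ) = (Fintype.equivFin (Word n) y : ℕ) := by
    exact_mod_cast h1
  exact (Fintype.equivFin (Word n)).injective (Fin.ext h2)

theorem c1_lower (n : ℕ) (hn : 2 ^ 64 ≤ n) :
    (1 / 101000000 : ℝ) * (Real.log n) ^ 2 / Real.log (Real.log n)
      ≤ c1 (fun x y : Word n => (ed x y : ℝ)) := by
  have := exists_inj n
  refine le_ciInf (fun f => ?_)
  obtain ⟨F, hF⟩ := f
  have hnn : ∀ p : {p : Word n × Word n // p.1 ≠ p.2},
      0 < ‖F p.1.1 - F p.1.2‖ := by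
    intro p
    rw [norm_pos_iff, sub_ne_zero]
    exact fun hc => p.2 (hF hc)
  have hb1 : BddAbove (Set.range (fun p : {p : Word n × Word n // p.1 ≠ p.2} =>
      ‖F p.1.1 - F p.1.2‖ / (ed p.1.1 p.1.2 : ℝ))) := (Set.finite_range _).bddAbove
  have hb2 : BddAbove (Set.range (fun p : {p : Word n × Word n // p.1 ≠ p.2} =>
      (ed p.1.1 p.1.2 : ℝ) / ‖F p.1.1 - F p.1.2‖)) := (Set.finite_range _).bddAbove
  refine lower n hn F _ _ ?_ ?_ ?_ ?_
  · exact Real.iSup_nonneg (fun p => by positivity)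
  · exact Real.iSup_nonneg (fun p => by positivity)
  · intro x y
    by_cases hxy : x = y
    · subst hxy
      simp only [sub_self, norm_zero]
      exact mul_nonneg (Real.iSup_nonneg (fun p => by positivity)) (by positivity)
    · have h1 := le_ciSup hb1 ⟨(x, y), hxy⟩
      rw [div_le_iff₀ (ed_pos hxy)] at h1
      exact h1
  · intro x y
    by_cases hxy : x = y
    · subst hxy
      have h0 : (ed x x : ℝ) = 0 := by
        unfold ed
        rw [editDist_self]
        simp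
      rw [h0]
      exact mul_nonneg (Real.iSup_nonneg (fun p => by positivity)) (norm_nonneg _)
    · have h1 := le_ciSup hb2 ⟨(x, y), hxy⟩
      rw [div_le_iff₀ (hnn ⟨(x, y), hxy⟩)] at h1
      exact h1

end P238
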