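import Vale.Agent.P238.Basic

namespace P238
open Finset
variable {ι : Type*} [Fintype ι] [DecidableEq ι]

/-- the sign of a bit -/
def sg (b : Bool) : ℝ := if b then -1 else 1

lemma sg_sq (b : Bool) : sg b * sg b = 1 := by cases b <;> simp [sg]

lemma chi_eq (S : Finset ι) (x : ι → Bool) : chi S x = ∏ i, (if i ∈ S then sg (x i) else 1) := by
  unfold chi sg
  rw [Finset.prod_ite_mem]
  simp

/-- Orthogonality. -/
theorem sum_chi_mul_chi (S T : Finset ι) :
    ∑ x : ι → Bool, chi S x * chi T x = if S = T then (2 : ℝ) ^ (Fintype.card ι) else 0 := by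
  have h1 : ∀ x : ι → Bool, chi S x * chi T x
      = ∏ i, ((if i ∈ S then sg (x i) else 1) * (if i ∈ T then sg (x i) else 1)) := by
    intro x
    rw [chi_eq, chi_eq, Finset.prod_mul_distrib]
  simp_rw [h1]
  have h2 := Finset.prod_univ_sum (fun _ : ι => (univ : Finset Bool))
    (fun i b => (if i ∈ S then sg b else 1) * (if i ∈ T then sg b else 1))
  rw [Fintype.piFinset_univ] at h2
  rw [← h2]
  by_cases hST : S = T
  · subst hST
    rw [if_pos rfl]
    have : ∀ i ∈ (univ : Finset ι), ∑ b : Bool, (if i ∈ S then sg b else 1) * (if i ∈ S then sg b else 1)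
        = (2 : ℝ) := by
      intro i _
      by_cases h : i ∈ S
      · simp [h, sg]; norm_num
      · simp [h]
    rw [Finset.prod_congr rfl this]
    simp
  · rw [if_neg hST]
    have : ∃ i, ¬ (i ∈ S ↔ i ∈ T) := by
      by_contra hc
      push Not at hc
      exact hST (Finset.ext hc)
    obtain ⟨i, hi⟩ := this
    apply Finset.prod_eq_zero (Finset.mem_univ i)
    by_cases h : i ∈ S
    · have h' : i ∉ T := fun h' => hi ⟨fun _ => h', fun _ => h⟩
      simp [h, h', sg]
    · have h' : i ∈ T := by
        by_contra h'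
        exact hi ⟨fun a => absurd a h, fun a => absurd a h'⟩
      simp [h, h', sg]

lemma sum_sets_chi (x y : ι → Bool) :
    ∑ S : Finset ι, chi S x * chi S y = if x = y then (2 : ℝ) ^ (Fintype.card ι) else 0 := by
  have h1 : ∀ S : Finset ι, chi S x * chi S y = ∏ i ∈ S, (sg (x i) * sg (y i)) := by
    intro S
    unfold chi sg
    rw [Finset.prod_mul_distrib]
  simp_rw [h1]
  have h2 := Finset.prod_one_add (f := fun i => sg (x i) * sg (y i)) (univ : Finset ι)
  rw [Finset.powerset_univ] at h2
  rw [← h2]
  by_cases hxy : x = y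
  · subst hxy
    rw [if_pos rfl]
    have : ∀ i ∈ (univ : Finset ι), 1 + sg (x i) * sg (x i) = (2 : ℝ) := by
      intro i _
      rw [sg_sq]; norm_num
    rw [Finset.prod_congr rfl this]
    simp
  · rw [if_neg hxy]
    obtain ⟨i, hi⟩ := Function.ne_iff.mp hxy
    apply Finset.prod_eq_zero (Finset.mem_univ i)
    cases hx : x i <;> cases hy : y i <;> simp_all [sg]

theorem inversion (f : (ι → Bool) → ℝ) (x : ι → Bool) :
    f x = ∑ S : Finset ι, coef f S * chi S x := by
  unfold coef
  have h2 : (2 : ℝ) ^ (Fintype.card ι) ≠ 0 := by positivity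
  have : ∀ S : Finset ι, (∑ y, f y * chi S y) / 2 ^ (Fintype.card ι) * chi S x
      = (∑ y, f y * (chi S y * chi S x)) / 2 ^ (Fintype.card ι) := by
    intro S
    rw [div_mul_eq_mul_div, Finset.sum_mul]
    congr 1
    exact Finset.sum_congr rfl (fun y _ => by ring)
  simp_rw [this]
  rw [← Finset.sum_div, Finset.sum_comm]
  simp_rw [← Finset.mul_sum, sum_sets_chi]
  simp [h2]

/-- Plancherel. -/
theorem plancherel (f g : (ι → Bool) → ℝ) :
    ∑ S : Finset ι, coef f S * coef g S = (∑ x, f x * g x) / 2 ^ (Fintype.card ι) := by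
  have h1 : ∀ x, f x * g x = ∑ S : Finset ι, coef g S * (f x * chi S x) := by
    intro x
    conv_lhs => rw [inversion g x, Finset.mul_sum]
    exact Finset.sum_congr rfl (fun S _ => by ring)
  simp_rw [h1]
  rw [Finset.sum_comm, Finset.sum_div]
  refine Finset.sum_congr rfl (fun S _ => ?_)
  rw [← Finset.mul_sum]
  conv_lhs => rw [coef]
  ring

theorem parseval (f : (ι → Bool) → ℝ) :
    ∑ S : Finset ι, coef f S ^ 2 = (∑ x, f x ^ 2) / 2 ^ (Fintype.card ι) := by
  have := plancherel f f
  simp_rw [← sq] at this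
  exact this

theorem coef_sub (f g : (ι → Bool) → ℝ) (S : Finset ι) :
    coef (fun x => f x - g x) S = coef f S - coef g S := by
  unfold coef
  rw [← sub_div, ← Finset.sum_sub_distrib]
  congr 1
  exact Finset.sum_congr rfl (fun x _ => by ring)

theorem coef_perm (f : (ι → Bool) → ℝ) (π : Equiv.Perm ι) (S : Finset ι) :
    coef (fun x => f (x ∘ π)) S = coef f (S.map π.symm.toEmbedding) := by
  unfold coef
  congr 1
  have e : (ι → Bool) ≃ (ι → Bool) := Equiv.arrowCongr π (Equiv.refl Bool)
  refine Fintype.sum_equiv (Equiv.arrowCongr π.symm (Equiv.refl Bool)) _ _ (fun x => ?_)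
  have h1 : (Equiv.arrowCongr π.symm (Equiv.refl Bool)) x = x ∘ π := by
    funext i; simp [Equiv.arrowCongr]
  rw [h1]
  congr 1
  unfold chi
  rw [Finset.prod_map]
  exact Finset.prod_congr rfl (fun i _ => by simp)

theorem coef_flip (f : (ι → Bool) → ℝ) (i : ι) (S : Finset ι) :
    coef (fun x => f (flip i x)) S = if i ∈ S then - coef f S else coef f S := by
  have hinv : Function.Involutive (flip i : (ι → Bool) → (ι → Bool)) := by
    intro x
    funext k
    by_cases hk : k = i
    · subst hk; simp [flip]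
    · simp [flip, Function.update_of_ne hk]
  have h1 : ∑ x, f (flip i x) * chi S x = ∑ x, f x * chi S (flip i x) := by
    refine Fintype.sum_equiv hinv.toPerm _ _ (fun x => ?_)
    simp only [Function.Involutive.coe_toPerm]
    rw [hinv x]
  have h2 : ∀ x, chi S (flip i x) = if i ∈ S then - chi S x else chi S x := by
    intro x
    by_cases hi : i ∈ S
    · rw [if_pos hi]
      unfold chi
      rw [← Finset.mul_prod_erase S _ hi, ← Finset.mul_prod_erase S _ hi]
      have : ∀ k ∈ S.erase i, (if flip i x k then (-1 : ℝ) else 1) = if x k then -1 else 1 := by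
        intro k hk
        have hk' : k ≠ i := Finset.ne_of_mem_erase hk
        simp [flip, Function.update_of_ne hk']
      rw [Finset.prod_congr rfl this]
      cases hx : x i <;> simp [flip, hx]
    · rw [if_neg hi]
      unfold chi
      refine Finset.prod_congr rfl (fun k hk => ?_)
      have hk' : k ≠ i := fun h => hi (h ▸ hk)
      simp [flip, Function.update_of_ne hk']
  unfold coef
  rw [h1]
  simp_rw [h2]
  by_cases hi : i ∈ S
  · simp [hi, Finset.sum_neg_distrib, neg_div]
  · simp [hi]

end P238
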