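import Vale.Agent.P238.Fourier

namespace P238
open Finset
variable {ι : Type*} [Fintype ι] [DecidableEq ι]

lemma hyper_chi_insert {i : ι} {S : Finset ι} (hi : i ∉ S) (x : ι → Bool) :
    chi (insert i S) x = sg (x i) * chi S x := by
  unfold chi sg
  rw [Finset.prod_insert hi]

lemma hyper_chi_flip {i : ι} {S : Finset ι} (hi : i ∉ S) (x : ι → Bool) :
    chi S (flip i x) = chi S x := by
  unfold chi
  refine Finset.prod_congr rfl fun k hk => ?_
  have hk' : k ≠ i := fun h => hi (h ▸ hk)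
  simp [flip, Function.update_of_ne hk']

lemma hyper_flip_inv (i : ι) : Function.Involutive (flip i : (ι → Bool) → (ι → Bool)) := by
  intro x
  funext k
  by_cases hk : k = i
  · subst hk; simp [flip]
  · simp [flip, Function.update_of_ne hk]

lemma hyper_sum_flip (i : ι) (F : (ι → Bool) → ℝ) : ∑ x, F (flip i x) = ∑ x, F x :=
  Equiv.sum_comp (hyper_flip_inv i).toPerm F

lemma hyper_sg_flip (i : ι) (x : ι → Bool) : sg (flip i x i) = - sg (x i) := by
  cases h : x i <;> simp [flip, sg, h]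

lemma hyper_aux (T : Finset ι) : ∀ b : Finset ι → ℝ,
    ∑ x : ι → Bool, (∑ S ∈ T.powerset, (1 / 3 : ℝ) ^ S.card * b S * chi S x) ^ 4
      ≤ 2 ^ (Fintype.card ι) * (∑ S ∈ T.powerset, (1 / 3 : ℝ) ^ S.card * b S ^ 2) ^ 2 := by
  induction T using Finset.induction_on with
  | empty =>
    intro b
    have h1 : ∀ x : ι → Bool, chi (∅ : Finset ι) x = 1 := fun x => by
      unfold chi
      rw [Finset.prod_empty]
    simp only [Finset.powerset_empty, Finset.sum_singleton, Finset.card_empty, pow_zero, one_mul,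
      h1, mul_one]
    rw [Finset.sum_const, Finset.card_univ, Fintype.card_fun, Fintype.card_bool, nsmul_eq_mul]
    push_cast
    apply le_of_eq
    ring
  | insert i T hi ih =>
    intro b
    have hS : ∀ S ∈ T.powerset, i ∉ S := fun S hS h => hi (Finset.mem_powerset.mp hS h)
    set A : (ι → Bool) → ℝ := fun x => ∑ S ∈ T.powerset, (1 / 3 : ℝ) ^ S.card * b S * chi S x
      with hA
    set B : (ι → Bool) → ℝ := fun x =>
      ∑ S ∈ T.powerset, (1 / 3 : ℝ) ^ S.card * b (insert i S) * chi S x with hB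
    set P : ℝ := ∑ S ∈ T.powerset, (1 / 3 : ℝ) ^ S.card * b S ^ 2 with hP
    set Q : ℝ := ∑ S ∈ T.powerset, (1 / 3 : ℝ) ^ S.card * b (insert i S) ^ 2 with hQ
    set N : ℝ := 2 ^ (Fintype.card ι) with hN
    have hN0 : 0 < N := by positivity
    have hP0 : 0 ≤ P := Finset.sum_nonneg fun S _ => by positivity
    have hQ0 : 0 ≤ Q := Finset.sum_nonneg fun S _ => by positivity
    have iA : ∑ x, A x ^ 4 ≤ N * P ^ 2 := ih b
    have iB : ∑ x, B x ^ 4 ≤ N * Q ^ 2 := ih fun S => b (insert i S)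
    have e1 : ∀ x, ∑ S ∈ (insert i T).powerset, (1 / 3 : ℝ) ^ S.card * b S * chi S x =
        A x + 1 / 3 * sg (x i) * B x := by
      intro x
      rw [Finset.sum_powerset_insert hi, hA, hB]
      simp only
      rw [Finset.mul_sum]
      congr 1
      refine Finset.sum_congr rfl fun S h => ?_
      rw [Finset.card_insert_of_notMem (hS S h), hyper_chi_insert (hS S h), pow_succ]
      ring
    have e2 : ∑ S ∈ (insert i T).powerset, (1 / 3 : ℝ) ^ S.card * b S ^ 2 = P + 1 / 3 * Q := by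
      rw [Finset.sum_powerset_insert hi, hP, hQ, Finset.mul_sum]
      congr 1
      refine Finset.sum_congr rfl fun S h => ?_
      rw [Finset.card_insert_of_notMem (hS S h), pow_succ]
      ring
    have fA : ∀ x, A (flip i x) = A x := fun x => by
      rw [hA]
      simp only
      exact Finset.sum_congr rfl fun S h => by rw [hyper_chi_flip (hS S h)]
    have fB : ∀ x, B (flip i x) = B x := fun x => by
      rw [hB]
      simp only
      exact Finset.sum_congr rfl fun S h => by rw [hyper_chi_flip (hS S h)]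
    have e3 : ∑ x, (A x + 1 / 3 * sg (x i) * B x) ^ 4 =
        ∑ x, A x ^ 4 + 2 / 3 * ∑ x, A x ^ 2 * B x ^ 2 + 1 / 81 * ∑ x, B x ^ 4 := by
      have h1 := hyper_sum_flip i fun x => (A x + 1 / 3 * sg (x i) * B x) ^ 4
      have h2 : 2 * ∑ x, (A x + 1 / 3 * sg (x i) * B x) ^ 4 =
          ∑ x, ((A x + 1 / 3 * sg (x i) * B x) ^ 4 +
            (A (flip i x) + 1 / 3 * sg (flip i x i) * B (flip i x)) ^ 4) := by
        rw [Finset.sum_add_distrib, h1]
        ring
      have h3 : 2 * ∑ x, (A x + 1 / 3 * sg (x i) * B x) ^ 4 =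
          2 * (∑ x, A x ^ 4 + 2 / 3 * ∑ x, A x ^ 2 * B x ^ 2 + 1 / 81 * ∑ x, B x ^ 4) := by
        rw [h2, Finset.mul_sum, Finset.mul_sum, ← Finset.sum_add_distrib,
          ← Finset.sum_add_distrib, Finset.mul_sum]
        refine Finset.sum_congr rfl fun x _ => ?_
        rw [fA, fB, hyper_sg_flip]
        have h4 : sg (x i) ^ 2 = 1 := by rw [sq]; exact sg_sq _
        have h5 : sg (x i) ^ 4 = 1 := by
          calc sg (x i) ^ 4 = (sg (x i) ^ 2) ^ 2 := by ring
            _ = 1 := by rw [h4]; norm_num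
        linear_combination (4 / 3 * A x ^ 2 * B x ^ 2) * h4 + (2 / 81 * B x ^ 4) * h5
      linarith
    have e4 : ∑ x, A x ^ 2 * B x ^ 2 ≤ N * (P * Q) := by
      have h1 := Finset.sum_mul_sq_le_sq_mul_sq univ (fun x => A x ^ 2) (fun x => B x ^ 2)
      have h2 : (∑ x, A x ^ 2 * B x ^ 2) ^ 2 ≤ (N * (P * Q)) ^ 2 := by
        calc (∑ x, A x ^ 2 * B x ^ 2) ^ 2
            ≤ (∑ x, (A x ^ 2) ^ 2) * ∑ x, (B x ^ 2) ^ 2 := h1
          _ = (∑ x, A x ^ 4) * ∑ x, B x ^ 4 := by
              congr 1 <;> exact Finset.sum_congr rfl fun x _ => by ring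
          _ ≤ (N * P ^ 2) * (N * Q ^ 2) :=
              mul_le_mul iA iB (Finset.sum_nonneg fun x _ => by positivity) (by positivity)
          _ = (N * (P * Q)) ^ 2 := by ring
      exact (sq_le_sq₀ (Finset.sum_nonneg fun x _ => by positivity) (by positivity)).mp h2
    simp_rw [e1]
    rw [e2, e3]
    nlinarith [mul_nonneg hN0.le (mul_nonneg hQ0 hQ0)]

/-- Bonami's lemma (2 → 4), in a square-root-free form. -/
theorem bonami4 (b : Finset ι → ℝ) :
    (∑ x : ι → Bool, (∑ S : Finset ι, (1 / 3 : ℝ) ^ S.card * b S * chi S x) ^ 4)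
      / 2 ^ (Fintype.card ι) ≤ (∑ S : Finset ι, (1 / 3 : ℝ) ^ S.card * b S ^ 2) ^ 2 := by
  have h := hyper_aux (univ : Finset ι) b
  rw [Finset.powerset_univ] at h
  rw [div_le_iff₀ (by positivity), mul_comm]
  exact h

/-- (4/3 → 2) for functions with values in `{0, 1, -1}`. -/
theorem level43 (g : (ι → Bool) → ℝ) (hg : ∀ x, g x = 0 ∨ g x = 1 ∨ g x = -1) :
    (∑ S : Finset ι, (1 / 3 : ℝ) ^ S.card * coef g S ^ 2) ^ 2
      ≤ ((∑ x, |g x|) / 2 ^ (Fintype.card ι)) ^ 3 := by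
  set A : ℝ := ∑ S : Finset ι, (1 / 3 : ℝ) ^ S.card * coef g S ^ 2 with hA
  set N : ℝ := 2 ^ (Fintype.card ι) with hN
  have hN0 : 0 < N := by positivity
  set G : ℝ := ∑ x, |g x| with hG
  have hG0 : 0 ≤ G := Finset.sum_nonneg fun x _ => abs_nonneg _
  have hA0 : 0 ≤ A := Finset.sum_nonneg fun S _ => by positivity
  set u : (ι → Bool) → ℝ := fun x => ∑ S : Finset ι, (1 / 3 : ℝ) ^ S.card * coef g S * chi S x
    with hu
  have h1 : ∑ x, g x * u x = N * A := by
    have h2 : ∀ x, g x * u x =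
        ∑ S : Finset ι, (1 / 3 : ℝ) ^ S.card * coef g S * (g x * chi S x) := fun x => by
      rw [hu]
      simp only
      rw [Finset.mul_sum]
      exact Finset.sum_congr rfl fun S _ => by ring
    simp_rw [h2]
    rw [Finset.sum_comm, hA, Finset.mul_sum]
    refine Finset.sum_congr rfl fun S _ => ?_
    rw [← Finset.mul_sum]
    have h3 : ∑ x, g x * chi S x = N * coef g S := by
      unfold coef
      rw [mul_div_cancel₀ _ hN0.ne']
    rw [h3]
    ring
  have g2 : ∀ x, g x ^ 2 = |g x| := fun x => by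
    rcases hg x with h | h | h <;> rw [h] <;> norm_num
  have g3 : ∀ x, g x * |g x| = g x := fun x => by
    rcases hg x with h | h | h <;> rw [h] <;> norm_num
  have g4 : ∀ x, |g x| ^ 2 = |g x| := fun x => by
    rcases hg x with h | h | h <;> rw [h] <;> norm_num
  have h2 : (N * A) ^ 2 ≤ G * ∑ x, |g x| * u x ^ 2 := by
    have h3 := Finset.sum_mul_sq_le_sq_mul_sq univ g (fun x => |g x| * u x)
    have h4 : ∑ x, g x * (|g x| * u x) = N * A := by
      rw [← h1]
      exact Finset.sum_congr rfl fun x _ => by rw [← mul_assoc, g3]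
    have h5 : ∑ x, g x ^ 2 = G := Finset.sum_congr rfl fun x _ => g2 x
    have h6 : ∑ x, (|g x| * u x) ^ 2 = ∑ x, |g x| * u x ^ 2 :=
      Finset.sum_congr rfl fun x _ => by rw [mul_pow, g4]
    rw [h4, h5, h6] at h3
    exact h3
  have h3 : (∑ x, |g x| * u x ^ 2) ^ 2 ≤ G * ∑ x, u x ^ 4 := by
    have h4 := Finset.sum_mul_sq_le_sq_mul_sq univ (fun x => |g x|) (fun x => u x ^ 2)
    have h5 : ∑ x, |g x| ^ 2 = G := Finset.sum_congr rfl fun x _ => g4 x
    have h6 : ∑ x, (u x ^ 2) ^ 2 = ∑ x, u x ^ 4 := Finset.sum_congr rfl fun x _ => by ring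
    rw [h5, h6] at h4
    exact h4
  have h4 : ∑ x, u x ^ 4 ≤ N * A ^ 2 := by
    have h5 := bonami4 (coef g)
    rw [div_le_iff₀ (by positivity), mul_comm] at h5
    exact h5
  have hW0 : 0 ≤ ∑ x, |g x| * u x ^ 2 := Finset.sum_nonneg fun x _ => by positivity
  have h5 : (N * A) ^ 4 ≤ G ^ 3 * (N * A ^ 2) := by
    calc (N * A) ^ 4 = ((N * A) ^ 2) ^ 2 := by ring
      _ ≤ (G * ∑ x, |g x| * u x ^ 2) ^ 2 := pow_le_pow_left₀ (by positivity) h2 2
      _ = G ^ 2 * (∑ x, |g x| * u x ^ 2) ^ 2 := by ring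
      _ ≤ G ^ 2 * (G * ∑ x, u x ^ 4) := mul_le_mul_of_nonneg_left h3 (by positivity)
      _ ≤ G ^ 2 * (G * (N * A ^ 2)) :=
          mul_le_mul_of_nonneg_left (mul_le_mul_of_nonneg_left h4 hG0) (by positivity)
      _ = G ^ 3 * (N * A ^ 2) := by ring
  rw [div_pow, le_div_iff₀ (by positivity)]
  rcases hA0.eq_or_lt with h0 | h0
  · rw [← h0]
    have : 0 ≤ G ^ 3 := by positivity
    calc (0 : ℝ) ^ 2 * N ^ 3 = 0 := by ring
      _ ≤ G ^ 3 := this
  · have h6 : 0 < N * A ^ 2 := by positivity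
    refine le_of_mul_le_mul_right ?_ h6
    calc A ^ 2 * N ^ 3 * (N * A ^ 2) = (N * A) ^ 4 := by ring
      _ ≤ G ^ 3 * (N * A ^ 2) := h5

end P238
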