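import Vale.Agent.P238.Hyper

namespace P238
open Finset
variable {ι : Type*} [Fintype ι] [DecidableEq ι]

/-- The influence of coordinate `i`. -/
noncomputable def infl (h : (ι → Bool) → ℝ) (i : ι) : ℝ := tv h (flip i) / 2 ^ (Fintype.card ι)

lemma infl_nonneg (h : (ι → Bool) → ℝ) (i : ι) : 0 ≤ infl h i := by
  unfold infl tv
  exact div_nonneg (Finset.sum_nonneg fun x _ => abs_nonneg _) (by positivity)

lemma kkl_coef (h : (ι → Bool) → ℝ) (i : ι) (S : Finset ι) :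
    coef (fun x => h x - h (flip i x)) S = if i ∈ S then 2 * coef h S else 0 := by
  rw [coef_sub h (fun x => h (flip i x)) S, coef_flip]
  by_cases hi : i ∈ S
  · simp [hi]; ring
  · simp [hi]

lemma kkl_vals (h : (ι → Bool) → ℝ) (hh : IsCut h) (i : ι) (x : ι → Bool) :
    h x - h (flip i x) = 0 ∨ h x - h (flip i x) = 1 ∨ h x - h (flip i x) = -1 := by
  rcases hh x with h1 | h1 <;> rcases hh (flip i x) with h2 | h2 <;> rw [h1, h2] <;> norm_num

lemma kkl_infl (h : (ι → Bool) → ℝ) (hh : IsCut h) (i : ι) :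
    infl h i = ∑ S : Finset ι, if i ∈ S then 4 * coef h S ^ 2 else 0 := by
  have h1 := parseval (fun x => h x - h (flip i x))
  have h2 : ∑ x, (h x - h (flip i x)) ^ 2 = tv h (flip i) := by
    unfold tv
    refine Finset.sum_congr rfl fun x _ => ?_
    rcases kkl_vals h hh i x with h3 | h3 | h3 <;> rw [h3] <;> norm_num
  rw [h2] at h1
  unfold infl
  rw [← h1]
  refine Finset.sum_congr rfl fun S _ => ?_
  rw [kkl_coef]
  by_cases hi : i ∈ S
  · simp [hi]; ring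
  · simp [hi]

lemma kkl_level (h : (ι → Bool) → ℝ) (hh : IsCut h) (θ : ℝ) (hθ : 0 ≤ θ) (i : ι)
    (hi : infl h i ≤ θ) :
    ∑ S : Finset ι, (if i ∈ S then (1 / 3 : ℝ) ^ S.card * (4 * coef h S ^ 2) else 0)
      ≤ √θ * infl h i := by
  have h1 := level43 (fun x => h x - h (flip i x)) (kkl_vals h hh i)
  have h2 : ∑ S : Finset ι, (1 / 3 : ℝ) ^ S.card *
      coef (fun x => h x - h (flip i x)) S ^ 2 =
      ∑ S : Finset ι, (if i ∈ S then (1 / 3 : ℝ) ^ S.card * (4 * coef h S ^ 2) else 0) := by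
    refine Finset.sum_congr rfl fun S _ => ?_
    rw [kkl_coef]
    by_cases hi : i ∈ S
    · simp [hi]; ring
    · simp [hi]
  rw [h2] at h1
  have h3 : (∑ x, |h x - h (flip i x)|) / 2 ^ (Fintype.card ι) = infl h i := rfl
  have h1' : (∑ S : Finset ι, (if i ∈ S then (1 / 3 : ℝ) ^ S.card * (4 * coef h S ^ 2) else 0)) ^ 2
      ≤ infl h i ^ 3 := h1
  have h4 := infl_nonneg h i
  have h5 : infl h i ^ 3 ≤ (√θ * infl h i) ^ 2 := by
    rw [mul_pow, Real.sq_sqrt hθ]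
    nlinarith [mul_nonneg h4 h4]
  exact le_of_sq_le_sq (h1'.trans h5) (mul_nonneg (Real.sqrt_nonneg _) h4)

lemma kkl_swap (c : Finset ι → ℝ) :
    ∑ i : ι, ∑ S : Finset ι, (if i ∈ S then c S else 0) = ∑ S : Finset ι, (S.card : ℝ) * c S := by
  rw [Finset.sum_comm]
  refine Finset.sum_congr rfl fun S _ => ?_
  rw [Finset.sum_ite_mem, Finset.univ_inter, Finset.sum_const, nsmul_eq_mul]

theorem kkl (h : (ι → Bool) → ℝ) (hh : IsCut h) (θ : ℝ) (hθ : 0 ≤ θ)
    (hi : ∀ i, infl h i ≤ θ) (m : ℕ) (hm : 1 ≤ m) :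
    4 * ∑ S ∈ (univ : Finset (Finset ι)) with S ≠ ∅, coef h S ^ 2
      ≤ (3 ^ m * √θ + 1 / m) * ∑ i, infl h i := by
  have hI : ∑ i, infl h i = ∑ S : Finset ι, (S.card : ℝ) * (4 * coef h S ^ 2) := by
    rw [← kkl_swap]
    exact Finset.sum_congr rfl fun i _ => kkl_infl h hh i
  have hT : ∑ S : Finset ι, (S.card : ℝ) * ((1 / 3 : ℝ) ^ S.card * (4 * coef h S ^ 2))
      ≤ √θ * ∑ i, infl h i := by
    rw [← kkl_swap (fun S => (1 / 3 : ℝ) ^ S.card * (4 * coef h S ^ 2)), Finset.mul_sum]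
    exact Finset.sum_le_sum fun i _ => kkl_level h hh θ hθ i (hi i)
  have hm' : (0 : ℝ) < m := by exact_mod_cast hm
  have key : ∀ S : Finset ι, S ≠ ∅ → 4 * coef h S ^ 2 ≤
      3 ^ m * ((S.card : ℝ) * ((1 / 3 : ℝ) ^ S.card * (4 * coef h S ^ 2)))
        + 1 / m * ((S.card : ℝ) * (4 * coef h S ^ 2)) := by
    intro S hS
    have hc : 0 ≤ 4 * coef h S ^ 2 := by positivity
    have hS1 : 1 ≤ S.card := Finset.card_pos.mpr (Finset.nonempty_iff_ne_empty.mpr hS)
    have hS1' : (1 : ℝ) ≤ S.card := by exact_mod_cast hS1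
    by_cases hle : S.card ≤ m
    · have h1 : (1 : ℝ) ≤ 3 ^ m * (1 / 3 : ℝ) ^ S.card := by
        have h2 : (3 : ℝ) ^ S.card ≤ 3 ^ m := pow_le_pow_right₀ (by norm_num) hle
        calc (1 : ℝ) = 3 ^ S.card * (1 / 3 : ℝ) ^ S.card := by
              rw [← mul_pow]; norm_num
          _ ≤ 3 ^ m * (1 / 3 : ℝ) ^ S.card :=
              mul_le_mul_of_nonneg_right h2 (by positivity)
      have h3 : (1 : ℝ) ≤ (3 ^ m * (1 / 3 : ℝ) ^ S.card) * S.card := by
        nlinarith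
      have h4 : 4 * coef h S ^ 2 ≤ ((3 ^ m * (1 / 3 : ℝ) ^ S.card) * S.card) *
          (4 * coef h S ^ 2) := le_mul_of_one_le_left hc h3
      have h5 : (0 : ℝ) ≤ 1 / m * ((S.card : ℝ) * (4 * coef h S ^ 2)) := by positivity
      calc 4 * coef h S ^ 2 ≤ ((3 ^ m * (1 / 3 : ℝ) ^ S.card) * S.card) *
          (4 * coef h S ^ 2) := h4
        _ = 3 ^ m * ((S.card : ℝ) * ((1 / 3 : ℝ) ^ S.card * (4 * coef h S ^ 2))) := by ring
        _ ≤ _ := le_add_of_nonneg_right h5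
    · push Not at hle
      have h1 : (m : ℝ) ≤ S.card := by exact_mod_cast hle.le
      have h2 : (1 : ℝ) ≤ 1 / m * S.card := by
        rw [one_div, inv_mul_eq_div, le_div_iff₀ hm']
        linarith
      have h3 : 4 * coef h S ^ 2 ≤ (1 / m * S.card) * (4 * coef h S ^ 2) :=
        le_mul_of_one_le_left hc h2
      have h5 : (0 : ℝ) ≤
          3 ^ m * ((S.card : ℝ) * ((1 / 3 : ℝ) ^ S.card * (4 * coef h S ^ 2))) := by positivity
      calc 4 * coef h S ^ 2 ≤ (1 / m * S.card) * (4 * coef h S ^ 2) := h3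
        _ = 1 / m * ((S.card : ℝ) * (4 * coef h S ^ 2)) := by ring
        _ ≤ _ := le_add_of_nonneg_left h5
  rw [Finset.mul_sum]
  calc ∑ S ∈ (univ : Finset (Finset ι)) with S ≠ ∅, 4 * coef h S ^ 2
      ≤ ∑ S ∈ (univ : Finset (Finset ι)) with S ≠ ∅,
        (3 ^ m * ((S.card : ℝ) * ((1 / 3 : ℝ) ^ S.card * (4 * coef h S ^ 2)))
        + 1 / m * ((S.card : ℝ) * (4 * coef h S ^ 2))) := by
        refine Finset.sum_le_sum fun S hS => ?_
        exact key S (Finset.mem_filter.mp hS).2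
    _ ≤ ∑ S : Finset ι,
        (3 ^ m * ((S.card : ℝ) * ((1 / 3 : ℝ) ^ S.card * (4 * coef h S ^ 2)))
        + 1 / m * ((S.card : ℝ) * (4 * coef h S ^ 2))) := by
        refine Finset.sum_le_sum_of_subset_of_nonneg (Finset.filter_subset _ _) ?_
        intro S _ _
        positivity
    _ = 3 ^ m * (∑ S : Finset ι, (S.card : ℝ) * ((1 / 3 : ℝ) ^ S.card * (4 * coef h S ^ 2)))
        + 1 / m * ∑ S : Finset ι, (S.card : ℝ) * (4 * coef h S ^ 2) := by
        rw [Finset.sum_add_distrib, ← Finset.mul_sum, ← Finset.mul_sum]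
    _ ≤ 3 ^ m * (√θ * ∑ i, infl h i) + 1 / m * ∑ i, infl h i := by
        rw [← hI]
        have : (0 : ℝ) ≤ 3 ^ m := by positivity
        linarith [mul_le_mul_of_nonneg_left hT this]
    _ = (3 ^ m * √θ + 1 / m) * ∑ i, infl h i := by ring

end P238
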