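import Vale.Agent.P238.Fourier

namespace P238
open Finset

section
variable {ι β C κ : Type*} [Fintype ι] [DecidableEq ι]

lemma sum_sq_perm (f : (ι → Bool) → ℝ) (π : Equiv.Perm ι) :
    ∑ x : ι → Bool, (f x - f (x ∘ π)) ^ 2
      = 2 ^ (Fintype.card ι) *
        ∑ S : Finset ι, (coef f S - coef f (S.map π.symm.toEmbedding)) ^ 2 := by
  have h1 := parseval (fun x => f x - f (x ∘ π))
  have h2 : ∀ S : Finset ι, coef (fun x => f x - f (x ∘ π)) S
      = coef f S - coef f (S.map π.symm.toEmbedding) := by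
    intro S
    rw [coef_sub f (fun x => f (x ∘ π)) S, coef_perm]
  simp_rw [h2] at h1
  rw [h1]
  have : (2 : ℝ) ^ (Fintype.card ι) ≠ 0 := by positivity
  field_simp

lemma rel_map (e : ι ≃ β × C × κ) (g : β → Equiv.Perm C) (S : Finset ι) :
    Rel e (S.map (blockPerm e g).toEmbedding) ↔ Rel e S := by
  unfold Rel
  constructor
  · rintro ⟨p, hp, q, hq, h1, h2⟩
    rw [Finset.mem_map] at hp hq
    obtain ⟨p', hp', rfl⟩ := hp
    obtain ⟨q', hq', rfl⟩ := hq
    refine ⟨p', hp', q', hq', ?_, ?_⟩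
    · simpa [blockPerm] using h1
    · intro hc
      apply h2
      have h1' : (e p').1 = (e q').1 := by simpa [blockPerm] using h1
      simp [blockPerm, hc, h1']
  · rintro ⟨p, hp, q, hq, h1, h2⟩
    refine ⟨blockPerm e g p, Finset.mem_map_of_mem _ hp, blockPerm e g q,
      Finset.mem_map_of_mem _ hq, ?_, ?_⟩
    · simpa [blockPerm] using h1
    · intro hc
      apply h2
      simpa [blockPerm, h1] using hc

lemma blockPerm_symm (e : ι ≃ β × C × κ) (g : β → Equiv.Perm C) :
    (blockPerm e g).symm = blockPerm e (fun B => (g B).symm) := by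
  ext p
  rfl

lemma sum_rel_map (e : ι ≃ β × C × κ) (g : β → Equiv.Perm C) [DecidablePred (Rel e)]
    (F : Finset ι → ℝ) :
    ∑ S ∈ (univ : Finset (Finset ι)) with Rel e S, F (S.map (blockPerm e g).toEmbedding)
      = ∑ S ∈ (univ : Finset (Finset ι)) with Rel e S, F S := by
  refine Finset.sum_bij' (fun S _ => S.map (blockPerm e g).toEmbedding)
    (fun S _ => S.map (blockPerm e g).symm.toEmbedding) ?_ ?_ ?_ ?_ ?_
  · intro S hS
    simp only [Finset.mem_filter, Finset.mem_univ, true_and] at hS ⊢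
    exact (rel_map e g S).mpr hS
  · intro S hS
    simp only [Finset.mem_filter, Finset.mem_univ, true_and] at hS ⊢
    rw [blockPerm_symm]
    exact (rel_map e _ S).mpr hS
  · intro S _
    ext p
    simp [Finset.mem_map]
  · intro S _
    ext p
    simp [Finset.mem_map]
  · intro S _
    rfl

end

/-- Comparison of the far maps (pair swaps of sub-blocks) with the near maps (rotation by one
sub-block): they have the same law on sets of positions hitting at most one sub-block of every
big block. -/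
theorem levelA {ι β C κ : Type*} [Fintype ι] [DecidableEq ι] [Fintype β] [DecidableEq β]
    (e : ι ≃ β × C × κ) (par : C → Bool) (r : Equiv.Perm C) (sw : Bool → Equiv.Perm C)
    (hsw : ∀ b c, sw b c = if xor (par c) b then r.symm c else r c)
    (hinv : ∀ b c, sw b (sw b c) = c) (f : (ι → Bool) → ℝ) [DecidablePred (Rel e)] :
    ∑ τ : β → Bool, ∑ x : ι → Bool, (f x - f (x ∘ blockPerm e (fun B => sw (τ B)))) ^ 2
      ≤ ∑ σ : β → Bool, ∑ x : ι → Bool,
          (f x - f (x ∘ blockPerm e (fun B => if σ B then r.symm else r))) ^ 2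
        + 4 * 2 ^ (Fintype.card β) * 2 ^ (Fintype.card ι)
          * ∑ S ∈ (univ : Finset (Finset ι)) with Rel e S, coef f S ^ 2 := by
  classical
  set c : Finset ι → ℝ := fun S => coef f S with hc
  set T : (β → Bool) → Equiv.Perm ι := fun τ => blockPerm e (fun B => sw (τ B)) with hT
  set R : (β → Bool) → Equiv.Perm ι :=
    fun σ => blockPerm e (fun B => if σ B then r.symm else r) with hR
  have hsymm : ∀ b c', (sw b).symm c' = sw b c' := by
    intro b c'
    rw [Equiv.symm_apply_eq]
    exact (hinv b c').symm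
  -- irrelevant sets
  have hirr : ∀ S : Finset ι, ¬ Rel e S →
      ∑ τ : β → Bool, (c S - c (S.map (T τ).symm.toEmbedding)) ^ 2
        = ∑ σ : β → Bool, (c S - c (S.map (R σ).symm.toEmbedding)) ^ 2 := by
    intro S hS
    set pS : β → Bool := fun B => if h : ∃ p ∈ S, (e p).1 = B then par (e h.choose).2.1 else false
      with hpS
    have hpar : ∀ p ∈ S, pS (e p).1 = par (e p).2.1 := by
      intro p hp
      have hex : ∃ q ∈ S, (e q).1 = (e p).1 := ⟨p, hp, rfl⟩
      have h1 := hex.choose_spec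
      simp only [hpS]
      rw [dif_pos hex]
      by_contra hne
      apply hS
      refine ⟨hex.choose, h1.1, p, hp, h1.2, ?_⟩
      intro hcc
      exact hne (by rw [hcc])
    have hinvol : Function.Involutive (fun (τ : β → Bool) (B : β) => !(xor (pS B) (τ B))) := by
      intro τ
      funext B
      simp only
      cases pS B <;> cases τ B <;> rfl
    set Φ : Equiv.Perm (β → Bool) := Function.Involutive.toPerm _ hinvol with hΦ
    refine Fintype.sum_equiv Φ _ _ (fun τ => ?_)
    have hmap : S.map (T τ).symm.toEmbedding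
        = S.map (R (Φ τ)).symm.toEmbedding := by
      have hpt : ∀ p ∈ S, (T τ).symm p = (R (Φ τ)).symm p := by
        intro p hp
        simp only [hT, hR, blockPerm_symm]
        show e.symm ((e p).1, (sw (τ (e p).1)).symm (e p).2.1, (e p).2.2)
          = e.symm ((e p).1, ((if Φ τ (e p).1 then r.symm else r).symm
              (e p).2.1), (e p).2.2)
        rw [hsymm, hsw]
        have h2 : Φ τ (e p).1 = !(xor (pS (e p).1) (τ (e p).1)) := rfl
        rw [h2, hpar p hp]
        cases par (e p).2.1 <;> cases τ (e p).1 <;> simp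
      ext q
      simp only [Finset.mem_map_equiv, Equiv.symm_symm]
      constructor
      · intro hq
        have h3 := hpt _ hq
        rw [Equiv.symm_apply_apply] at h3
        rw [h3, Equiv.apply_symm_apply]
        exact hq
      · intro hq
        have h3 := hpt _ hq
        rw [Equiv.symm_apply_apply] at h3
        rw [← h3, Equiv.apply_symm_apply]
        exact hq
    rw [hmap]
  -- relevant sets
  have hrel : ∀ τ : β → Bool,
      ∑ S ∈ (univ : Finset (Finset ι)) with Rel e S,
        (c S - c (S.map (T τ).symm.toEmbedding)) ^ 2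
        ≤ 4 * ∑ S ∈ (univ : Finset (Finset ι)) with Rel e S, c S ^ 2 := by
    intro τ
    have h1 : ∑ S ∈ (univ : Finset (Finset ι)) with Rel e S,
        (c S - c (S.map (T τ).symm.toEmbedding)) ^ 2
        ≤ ∑ S ∈ (univ : Finset (Finset ι)) with Rel e S,
          (2 * c S ^ 2 + 2 * c (S.map (T τ).symm.toEmbedding) ^ 2) := by
      refine Finset.sum_le_sum (fun S _ => ?_)
      nlinarith [sq_nonneg (c S + c (S.map (T τ).symm.toEmbedding))]
    refine h1.trans (le_of_eq ?_)
    rw [Finset.sum_add_distrib, ← Finset.mul_sum, ← Finset.mul_sum]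
    have h2 : ∑ S ∈ (univ : Finset (Finset ι)) with Rel e S,
        c (S.map (T τ).symm.toEmbedding) ^ 2
        = ∑ S ∈ (univ : Finset (Finset ι)) with Rel e S, c S ^ 2 := by
      simp only [hT, blockPerm_symm]
      exact sum_rel_map e (fun B => (sw (τ B)).symm) (fun S => c S ^ 2)
    rw [h2]
    ring
  have hn : (0 : ℝ) < 2 ^ (Fintype.card ι) := by positivity
  have hL : ∀ τ : β → Bool, ∑ x : ι → Bool, (f x - f (x ∘ T τ)) ^ 2
      = 2 ^ (Fintype.card ι) * ∑ S : Finset ι, (c S - c (S.map (T τ).symm.toEmbedding)) ^ 2 :=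
    fun τ => sum_sq_perm f (T τ)
  have hRr : ∀ σ : β → Bool, ∑ x : ι → Bool, (f x - f (x ∘ R σ)) ^ 2
      = 2 ^ (Fintype.card ι) * ∑ S : Finset ι, (c S - c (S.map (R σ).symm.toEmbedding)) ^ 2 :=
    fun σ => sum_sq_perm f (R σ)
  show ∑ τ : β → Bool, ∑ x : ι → Bool, (f x - f (x ∘ T τ)) ^ 2
      ≤ ∑ σ : β → Bool, ∑ x : ι → Bool, (f x - f (x ∘ R σ)) ^ 2 + _
  simp_rw [hL, hRr]
  rw [← Finset.mul_sum, ← Finset.mul_sum]
  have hsplit : ∀ τ : β → Bool,
      ∑ S : Finset ι, (c S - c (S.map (T τ).symm.toEmbedding)) ^ 2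
        ≤ ∑ S ∈ (univ : Finset (Finset ι)) with ¬ Rel e S,
            (c S - c (S.map (T τ).symm.toEmbedding)) ^ 2
          + 4 * ∑ S ∈ (univ : Finset (Finset ι)) with Rel e S, c S ^ 2 := by
    intro τ
    have := Finset.sum_filter_add_sum_filter_not (univ : Finset (Finset ι)) (Rel e)
      (fun S => (c S - c (S.map (T τ).symm.toEmbedding)) ^ 2)
    have h2 := hrel τ
    linarith
  have h3 := Finset.sum_le_sum (fun τ (_ : τ ∈ (univ : Finset (β → Bool))) => hsplit τ)
  rw [Finset.sum_add_distrib] at h3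
  have h4 : ∑ τ : β → Bool, ∑ S ∈ (univ : Finset (Finset ι)) with ¬ Rel e S,
            (c S - c (S.map (T τ).symm.toEmbedding)) ^ 2
      ≤ ∑ σ : β → Bool, ∑ S : Finset ι, (c S - c (S.map (R σ).symm.toEmbedding)) ^ 2 := by
    rw [Finset.sum_comm]
    have h5 : ∑ S ∈ (univ : Finset (Finset ι)) with ¬ Rel e S,
        ∑ τ : β → Bool, (c S - c (S.map (T τ).symm.toEmbedding)) ^ 2
        = ∑ S ∈ (univ : Finset (Finset ι)) with ¬ Rel e S,
          ∑ σ : β → Bool, (c S - c (S.map (R σ).symm.toEmbedding)) ^ 2 := by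
      refine Finset.sum_congr rfl (fun S hS => ?_)
      exact hirr S (Finset.mem_filter.mp hS).2
    rw [h5, Finset.sum_comm]
    refine Finset.sum_le_sum (fun σ _ => ?_)
    exact Finset.sum_le_sum_of_subset_of_nonneg (Finset.filter_subset _ _)
      (fun S _ _ => sq_nonneg _)
  have h6 : ∑ _τ : β → Bool, 4 * ∑ S ∈ (univ : Finset (Finset ι)) with Rel e S, c S ^ 2
      = 2 ^ (Fintype.card β) * (4 * ∑ S ∈ (univ : Finset (Finset ι)) with Rel e S, c S ^ 2) := by
    rw [Finset.sum_const, nsmul_eq_mul]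
    simp
  rw [h6] at h3
  have h7 : ∑ τ : β → Bool, ∑ S : Finset ι, (c S - c (S.map (T τ).symm.toEmbedding)) ^ 2
      ≤ ∑ σ : β → Bool, ∑ S : Finset ι, (c S - c (S.map (R σ).symm.toEmbedding)) ^ 2
        + 2 ^ (Fintype.card β)
          * (4 * ∑ S ∈ (univ : Finset (Finset ι)) with Rel e S, c S ^ 2) := by
    linarith
  calc _ ≤ 2 ^ (Fintype.card ι) * _ := mul_le_mul_of_nonneg_left h7 hn.le
    _ = _ := by ring

end P238
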