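import Vale.Agent.P238.Basic

namespace P238
open Finset

lemma finRotate_val' {n : ℕ} (hn : 0 < n) (c : Fin n) :
    ((finRotate n c : Fin n) : ℕ) = if (c : ℕ) + 1 = n then 0 else (c : ℕ) + 1 := by
  obtain ⟨k, rfl⟩ : ∃ k, n = k + 1 := ⟨n - 1, by omega⟩
  by_cases h : c = Fin.last k
  · subst h
    simp
  · have h' : (c : ℕ) < k := by
      have := c.2
      rcases lt_or_eq_of_le (Nat.lt_succ_iff.mp this) with h1 | h1
      · exact h1
      · exact absurd (Fin.ext h1) h
    rw [if_neg (by omega)]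
    rw [coe_finRotate_of_ne_last h]

/-- The pair swaps of an even cycle. -/
theorem exists_sw (μ : ℕ) (hμ : 2 ≤ μ) : ∃ (sw : Bool → Equiv.Perm (Fin (2 * μ)))
    (par : Fin (2 * μ) → Bool),
    (∀ b c, sw b c = if xor (par c) b then (finRotate (2 * μ)).symm c else finRotate (2 * μ) c) ∧
    (∀ b c, sw b (sw b c) = c) ∧ (∀ b c, sw b c ≠ c) := by
  classical
  have hn : 0 < 2 * μ := by omega
  set r := finRotate (2 * μ) with hr
  set par : Fin (2 * μ) → Bool := fun c => decide ((c : ℕ) % 2 = 1) with hpar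
  have hpr : ∀ c, par (r c) = !(par c) := by
    intro c
    simp only [hpar, hr, finRotate_val' hn]
    by_cases h : (c : ℕ) + 1 = 2 * μ
    · rw [if_pos h]
      have : (c : ℕ) % 2 = 1 := by omega
      simp [this]
    · rw [if_neg h]
      rcases Nat.mod_two_eq_zero_or_one (c : ℕ) with h1 | h1
      · have : ((c : ℕ) + 1) % 2 = 1 := by omega
        simp [this, h1]
      · have : ((c : ℕ) + 1) % 2 = 0 := by omega
        simp [this, h1]
  have hprs : ∀ c, par (r.symm c) = !(par c) := by
    intro c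
    have := hpr (r.symm c)
    rw [Equiv.apply_symm_apply] at this
    rw [this, Bool.not_not]
  set F : Bool → Fin (2 * μ) → Fin (2 * μ) :=
    fun b c => if xor (par c) b then r.symm c else r c with hF
  have hFF : ∀ b, Function.Involutive (F b) := by
    intro b c
    simp only [hF]
    by_cases h : xor (par c) b = true
    · rw [if_pos h]
      have : ¬ (xor (par (r.symm c)) b = true) := by
        rw [hprs]
        revert h; cases par c <;> cases b <;> simp
      rw [if_neg this, Equiv.apply_symm_apply]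
    · rw [if_neg h]
      have : (xor (par (r c)) b = true) := by
        rw [hpr]
        revert h; cases par c <;> cases b <;> simp
      rw [if_pos this, Equiv.symm_apply_apply]
  have hrne : ∀ c, r c ≠ c := by
    intro c hc
    have := congrArg Fin.val hc
    rw [hr, finRotate_val' hn] at this
    by_cases h : (c : ℕ) + 1 = 2 * μ
    · rw [if_pos h] at this; omega
    · rw [if_neg h] at this; omega
  refine ⟨fun b => (hFF b).toPerm, par, fun b c => rfl, fun b c => hFF b c, fun b c => ?_⟩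
  show F b c ≠ c
  simp only [hF]
  by_cases h : xor (par c) b = true
  · rw [if_pos h]
    intro hc
    apply hrne c
    rw [Equiv.symm_apply_eq] at hc
    exact hc.symm
  · rw [if_neg h]
    exact hrne c

theorem lvl_size (w l J j : ℕ) (hj : j < J) : w * l ^ J = l ^ (J - 1 - j) * (l * (w * l ^ j)) := by
  have h : J = (J - 1 - j) + 1 + j := by omega
  conv_lhs => rw [h]
  rw [pow_add, pow_add, pow_one]
  ring

theorem win_size (w l J : ℕ) : w * l ^ J = l ^ J * w := Nat.mul_comm _ _

/-- The level-`j` splitting of the positions. -/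
def lvl (w l J j : ℕ) (hj : j < J) :
    Fin (w * l ^ J) ≃ Fin (l ^ (J - 1 - j)) × Fin l × Fin (w * l ^ j) :=
  (finCongr (lvl_size w l J j hj)).trans (split3 _ _ _)

lemma lvl_fst (w l J j : ℕ) (hj : j < J) (p : Fin (w * l ^ J)) :
    ((lvl w l J j hj p).1 : ℕ) = (p : ℕ) / (w * l ^ (j + 1)) := by
  have : ((lvl w l J j hj p).1 : ℕ) = (p : ℕ) / (l * (w * l ^ j)) := by
    simp [lvl, split3, finProdFinEquiv]
  rw [this, pow_succ]
  congr 1
  ring

lemma lvl_snd (w l J j : ℕ) (hj : j < J) (p : Fin (w * l ^ J)) :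
    ((lvl w l J j hj p).2.1 : ℕ) = ((p : ℕ) / (w * l ^ j)) % l := by
  have : ((lvl w l J j hj p).2.1 : ℕ) = ((p : ℕ) % (l * (w * l ^ j))) / (w * l ^ j) := by
    simp [lvl, split3, finProdFinEquiv]
  rw [this, mul_comm l, Nat.mod_mul_right_div_self]

theorem rel_lvl (w l J j : ℕ) (hw : 0 < w) (hl : 0 < l) (hj : j < J)
    (S : Finset (Fin (w * l ^ J))) :
    Rel (lvl w l J j hj) S ↔ ∃ p ∈ S, ∃ q ∈ S,
      (p : ℕ) / (w * l ^ (j + 1)) = (q : ℕ) / (w * l ^ (j + 1)) ∧
        (p : ℕ) / (w * l ^ j) ≠ (q : ℕ) / (w * l ^ j) := by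
  unfold Rel
  refine exists_congr (fun p => and_congr_right (fun _ => exists_congr (fun q =>
    and_congr_right (fun _ => ?_))))
  have h1 : (lvl w l J j hj p).1 = (lvl w l J j hj q).1 ↔
      (p : ℕ) / (w * l ^ (j + 1)) = (q : ℕ) / (w * l ^ (j + 1)) := by
    rw [← lvl_fst w l J j hj p, ← lvl_fst w l J j hj q]
    exact Fin.ext_iff
  rw [h1]
  refine and_congr_right (fun h2 => not_congr ?_)
  rw [Fin.ext_iff, lvl_snd, lvl_snd]
  have hdiv : ∀ a : ℕ, a / (w * l ^ (j + 1)) = (a / (w * l ^ j)) / l := by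
    intro a
    rw [Nat.div_div_eq_div_mul, pow_succ, mul_assoc]
  rw [hdiv, hdiv] at h2
  constructor
  · intro h3
    rw [← Nat.div_add_mod ((p : ℕ) / (w * l ^ j)) l, ← Nat.div_add_mod ((q : ℕ) / (w * l ^ j)) l,
      h2, h3]
  · intro h3
    rw [h3]

/-- the window of a position. -/
theorem win_val (w l J : ℕ) (hw : 0 < w) (p : Fin (w * l ^ J)) :
    (((finCongr (win_size w l J)).trans finProdFinEquiv.symm p).1 : ℕ) = (p : ℕ) / w := by
  simp [finProdFinEquiv]

end P238
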