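import Vale.Agent.P238.Bwin
import Vale.Agent.P238.LevelA
import Vale.Agent.P238.Count
import Vale.Agent.P238.Levels
import Vale.Agent.P238.Cut

namespace P238
open Finset

section
variable (w l J : ℕ)

/-- window splitting of the positions -/
def wsplit : Fin (w * l ^ J) ≃ Fin (l ^ J) × Fin w :=
  (finCongr (win_size w l J)).trans finProdFinEquiv.symm

/-- far map at level `j`. -/
def farMap (sw : Bool → Equiv.Perm (Fin l)) (j : Fin J) (τ : Fin (l ^ (J - 1 - (j : ℕ))) → Bool)
    (x : Word (w * l ^ J)) : Word (w * l ^ J) :=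
  x ∘ blockPerm (lvl w l J j j.2) (fun B => sw (τ B))

/-- near map at level `j`. -/
def nearMap (j : Fin J) (σ : Fin (l ^ (J - 1 - (j : ℕ))) → Bool)
    (x : Word (w * l ^ J)) : Word (w * l ^ J) :=
  x ∘ blockPerm (lvl w l J j j.2) (fun B => if σ B then (finRotate l).symm else finRotate l)

end

/-- The Poincaré inequality for cuts. -/
theorem cut_ineq (w l J : ℕ) [NeZero w] (hl : 0 < l) (sw : Bool → Equiv.Perm (Fin l))
    (par : Fin l → Bool)
    (hsw : ∀ b c, sw b c = if xor (par c) b then (finRotate l).symm c else finRotate l c)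
    (hinv : ∀ b c, sw b (sw b c) = c)
    (θ : ℝ) (hθ : 0 < θ) (m : ℕ) (hm : 1 ≤ m) (R : Finset (Fin w)) (hR : R.Nonempty)
    (f : Word (w * l ^ J) → ℝ) (hf : IsCut f) :
    ∑ j : Fin J, ∑ τ : Fin (l ^ (J - 1 - (j : ℕ))) → Bool,
        (1 / 2 ^ (l ^ (J - 1 - (j : ℕ))) : ℝ) * tv f (farMap w l J sw j τ)
      ≤ ∑ j : Fin J, ∑ τ : Fin (l ^ (J - 1 - (j : ℕ))) → Bool,
        (1 / 2 ^ (l ^ (J - 1 - (j : ℕ))) : ℝ) * tv f (nearMap w l J j τ)
      + (3 ^ m * √θ + 1 / m + 1 / (R.card * θ)) * ∑ i, tv f (flip i)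
      + 2 / (R.card * θ) * ∑ Q : Fin (l ^ J), ∑ v ∈ R,
          tv f (fun x => x ∘ winRot (wsplit w l J) Q v) := by
  classical
  have hw : 0 < w := Nat.pos_of_ne_zero (NeZero.ne w)
  have hsq : ∀ a b : ℝ, (a = 0 ∨ a = 1) → (b = 0 ∨ b = 1) → (a - b) ^ 2 = |a - b| := by
    rintro a b (rfl | rfl) (rfl | rfl) <;> norm_num
  have htv : ∀ g : Word (w * l ^ J) → Word (w * l ^ J), ∑ x, (f x - f (g x)) ^ 2 = tv f g := by
    intro g
    unfold tv
    exact Finset.sum_congr rfl (fun x _ => hsq _ _ (hf x) (hf (g x)))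
  have hB := bwin (wsplit w l J) f hf θ hθ m hm R hR
  -- level inequalities
  have hA : ∀ j : Fin J, ∑ τ : Fin (l ^ (J - 1 - (j : ℕ))) → Bool,
        (1 / 2 ^ (l ^ (J - 1 - (j : ℕ))) : ℝ) * tv f (farMap w l J sw j τ)
      ≤ ∑ τ : Fin (l ^ (J - 1 - (j : ℕ))) → Bool,
        (1 / 2 ^ (l ^ (J - 1 - (j : ℕ))) : ℝ) * tv f (nearMap w l J j τ)
        + 4 * 2 ^ (w * l ^ J) * ∑ S ∈ (univ : Finset (Finset (Fin (w * l ^ J)))) with
            Rel (lvl w l J j j.2) S, coef f S ^ 2 := by
    intro j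
    have h := levelA (lvl w l J j j.2) par (finRotate l) sw hsw hinv f
    simp only [Fintype.card_fin] at h
    have e1 : ∀ τ : Fin (l ^ (J - 1 - (j : ℕ))) → Bool,
        ∑ x : Fin (w * l ^ J) → Bool,
          (f x - f (x ∘ blockPerm (lvl w l J j j.2) (fun B => sw (τ B)))) ^ 2
          = tv f (farMap w l J sw j τ) := fun τ => htv _
    have e2 : ∀ τ : Fin (l ^ (J - 1 - (j : ℕ))) → Bool,
        ∑ x : Fin (w * l ^ J) → Bool,
          (f x - f (x ∘ blockPerm (lvl w l J j j.2)
            (fun B => if τ B then (finRotate l).symm else finRotate l))) ^ 2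
          = tv f (nearMap w l J j τ) := fun τ => htv _
    simp only [e1, e2] at h
    rw [← Finset.mul_sum, ← Finset.mul_sum]
    have hpos : (0 : ℝ) < 2 ^ (l ^ (J - 1 - (j : ℕ))) := by positivity
    have h2 := mul_le_mul_of_nonneg_left h (le_of_lt (one_div_pos.mpr hpos))
    refine h2.trans (le_of_eq ?_)
    rw [mul_add]
    congr 1
    field_simp
  -- counting
  have hC : ∑ j : Fin J, ∑ S ∈ (univ : Finset (Finset (Fin (w * l ^ J)))) with
            Rel (lvl w l J j j.2) S, coef f S ^ 2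
      ≤ ∑ S : Finset (Fin (w * l ^ J)), coef f S ^ 2 *
          ((S.image (fun p => (wsplit w l J p).1)).card : ℝ) := by
    simp_rw [Finset.sum_filter]
    rw [Finset.sum_comm]
    refine Finset.sum_le_sum (fun S _ => ?_)
    rw [← Finset.sum_filter, Finset.sum_const, nsmul_eq_mul, mul_comm]
    refine mul_le_mul_of_nonneg_left ?_ (sq_nonneg _)
    have h1 := count_rel w l J hw hl S
    have h2 : (S.image (fun p : Fin (w * l ^ J) => (p : ℕ) / w)).card
        = (S.image (fun p => (wsplit w l J p).1)).card := by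
      have : (fun p : Fin (w * l ^ J) => (p : ℕ) / w)
          = (fun q : Fin (l ^ J) => (q : ℕ)) ∘ (fun p => (wsplit w l J p).1) := by
        funext p
        exact (win_val w l J hw p).symm
      rw [this, ← Finset.image_image]
      exact Finset.card_image_of_injective _ Fin.val_injective
    rw [h2] at h1
    have h3 : ((univ : Finset (Fin J)).filter (fun j : Fin J => Rel (lvl w l J j j.2) S)).card
        ≤ ((range J).filter (fun j => ∃ p ∈ S, ∃ q ∈ S,
      (p : ℕ) / (w * l ^ (j + 1)) = (q : ℕ) / (w * l ^ (j + 1)) ∧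
        (p : ℕ) / (w * l ^ j) ≠ (q : ℕ) / (w * l ^ j))).card := by
      refine Finset.card_le_card_of_injOn (fun j : Fin J => (j : ℕ)) ?_
        (fun a _ b _ h => Fin.ext h)
      intro j hj
      simp only [Finset.coe_filter, Finset.mem_univ, true_and, Set.mem_setOf_eq] at hj
      simp only [Finset.coe_filter, Finset.mem_range, Set.mem_setOf_eq]
      exact ⟨j.2, (rel_lvl w l J j hw hl j.2 S).mp hj⟩
    exact_mod_cast h3.trans h1
  have hsum := Finset.sum_le_sum (fun j (_ : j ∈ (univ : Finset (Fin J))) => hA j)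
  rw [Finset.sum_add_distrib, ← Finset.mul_sum] at hsum
  simp only [Fintype.card_fin] at hB
  have hC' := mul_le_mul_of_nonneg_left hC (show (0 : ℝ) ≤ 4 * 2 ^ (w * l ^ J) by positivity)
  calc _ ≤ _ := hsum
    _ ≤ _ := by
      have : 4 * 2 ^ (w * l ^ J) * ∑ S : Finset (Fin (w * l ^ J)), coef f S ^ 2 *
          ((S.image (fun p => (wsplit w l J p).1)).card : ℝ)
          ≤ (3 ^ m * √θ + 1 / m + 1 / (R.card * θ)) * ∑ i, tv f (flip i)
        + 2 / (R.card * θ) * ∑ Q : Fin (l ^ J), ∑ v ∈ R,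
            tv f (fun x => x ∘ winRot (wsplit w l J) Q v) := by
        rw [mul_assoc]
        exact hB
      linarith

end P238
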