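import Vale.Agent.P238.Edit

namespace P238
open Finset

/-- the distance between concatenations -/
theorem editDist_flatten {α : Type*} : ∀ {n : ℕ} (a b : Fin n → List α),
    editDist (List.ofFn a).flatten (List.ofFn b).flatten ≤ ∑ i, editDist (a i) (b i) := by
  intro n
  induction n with
  | zero =>
    intro a b
    rw [List.ofFn_zero, List.ofFn_zero, editDist_self]
    exact Nat.zero_le _
  | succ n ih =>
    intro a b
    rw [List.ofFn_succ, List.ofFn_succ, List.flatten_cons, List.flatten_cons, Fin.sum_univ_succ]
    exact (editDist_append _ _ _ _).trans (Nat.add_le_add_left (ih _ _) _)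

theorem editDist_pad {α : Type*} (x y z : List α) :
    editDist (x ++ z) (y ++ z) ≤ editDist x y := by
  have h := editDist_append x y z z
  rwa [editDist_self, Nat.add_zero] at h

theorem near_flip {N : ℕ} (x : Word N) (i : Fin N) (z : List Bool) :
    editDist (List.ofFn x ++ z) (List.ofFn (flip i x) ++ z) ≤ 1 := by
  refine (editDist_pad _ _ _).trans (editDist_le ?_)
  have h1 : List.ofFn x = (List.ofFn x).take i ++ x i :: (List.ofFn x).drop (i + 1) := by
    have h2 : (i : ℕ) < (List.ofFn x).length := by
      rw [List.length_ofFn]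
      exact i.isLt
    have h3 := (List.ofFn x).take_append_drop i
    rw [List.drop_eq_getElem_cons h2, List.getElem_ofFn] at h3
    exact h3.symm
  have h4 : List.ofFn (flip i x) =
      (List.ofFn x).take i ++ (!(x i)) :: (List.ofFn x).drop (i + 1) := by
    have h5 : List.ofFn (flip i x) = (List.ofFn x).set i (!(x i)) := by
      refine List.ext_getElem (by simp) fun k hk _ => ?_
      rw [List.length_ofFn] at hk
      rw [List.getElem_ofFn, List.getElem_set, List.getElem_ofFn]
      unfold flip
      by_cases h : (i : ℕ) = k
      · have : (⟨k, hk⟩ : Fin N) = i := Fin.ext h.symm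
        rw [this, Function.update_self, if_pos h]
      · have : (⟨k, hk⟩ : Fin N) ≠ i := fun h' => h (by rw [← h'])
        rw [Function.update_of_ne this, if_neg h]
    rw [h5, List.set_eq_take_append_cons_drop, if_pos (by simp)]
  rw [h4]
  conv_lhs => rw [h1]
  exact Reach.step (Reach.refl _) (Edit.sub _ _ _ _)

theorem ofFn_prod {α : Type*} {p q : ℕ} (f : Fin (p * q) → α) :
    List.ofFn f =
      (List.ofFn fun i : Fin p => List.ofFn fun j : Fin q => f (finProdFinEquiv (i, j))).flatten := by
  rw [List.ofFn_mul]
  congr 1
  refine congrArg List.ofFn (funext fun i => congrArg List.ofFn (funext fun j => ?_))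
  refine congrArg f (Fin.ext ?_)
  simp [finProdFinEquiv]
  ring

theorem editDist_rot {α : Type*} {l s : ℕ} (a : Fin l → List α) (ha : ∀ c, (a c).length = s) :
    editDist (List.ofFn a).flatten (List.ofFn (a ∘ finRotate l)).flatten ≤ 2 * s ∧
    editDist (List.ofFn (a ∘ finRotate l)).flatten (List.ofFn a).flatten ≤ 2 * s := by
  cases l with
  | zero =>
    rw [List.ofFn_zero, List.ofFn_zero, editDist_self]
    exact ⟨Nat.zero_le _, Nat.zero_le _⟩
  | succ l =>
    have h1 : (List.ofFn a).flatten = a 0 ++ (List.ofFn fun i : Fin l => a i.succ).flatten := by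
      rw [List.ofFn_succ, List.flatten_cons]
    have h2 : (List.ofFn (a ∘ finRotate (l + 1))).flatten =
        (List.ofFn fun i : Fin l => a i.succ).flatten ++ a 0 := by
      rw [List.ofFn_succ', List.concat_eq_append, List.flatten_append, List.flatten_singleton]
      have e1 : (a ∘ finRotate (l + 1)) (Fin.last l) = a 0 := by
        rw [Function.comp_apply, finRotate_last]
      have e2 : (fun i : Fin l => (a ∘ finRotate (l + 1)) i.castSucc) =
          fun i : Fin l => a i.succ := by
        funext i
        rw [Function.comp_apply, finRotate_apply]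
        congr 1
        exact Fin.coeSucc_eq_succ
      rw [e1, e2]
    rw [h1, h2, ← ha 0]
    exact ⟨editDist_swap _ _, editDist_swap' _ _⟩

theorem near_block {N nb l s : ℕ} (hN : N = nb * (l * s)) (x : Word N)
    (g : Fin nb → Equiv.Perm (Fin l)) (hg : ∀ B, g B = finRotate l ∨ g B = (finRotate l).symm)
    (z : List Bool) :
    editDist (List.ofFn x ++ z)
      (List.ofFn (x ∘ blockPerm ((finCongr hN).trans (split3 nb l s)) g) ++ z) ≤ nb * (2 * s) := by
  subst hN
  refine (editDist_pad _ _ _).trans ?_
  set a : Fin nb → Fin l → List Bool := fun B c =>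
    List.ofFn fun o : Fin s => x (finProdFinEquiv (B, finProdFinEquiv (c, o))) with hadef
  have h1 : List.ofFn x = (List.ofFn fun B => (List.ofFn (a B)).flatten).flatten := by
    rw [ofFn_prod]
    refine congrArg List.flatten (congrArg List.ofFn (funext fun B => ?_))
    rw [ofFn_prod]
  have h2 : List.ofFn (x ∘ blockPerm ((finCongr rfl).trans (split3 nb l s)) g) =
      (List.ofFn fun B => (List.ofFn (a B ∘ g B)).flatten).flatten := by
    rw [ofFn_prod]
    refine congrArg List.flatten (congrArg List.ofFn (funext fun B => ?_))
    rw [ofFn_prod]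
    refine congrArg List.flatten (congrArg List.ofFn (funext fun c => ?_))
    refine congrArg List.ofFn (funext fun o => ?_)
    have e1 : ((finCongr rfl).trans (split3 nb l s))
        (finProdFinEquiv (B, finProdFinEquiv (c, o))) = (B, c, o) := by
      change ((finProdFinEquiv.symm (finProdFinEquiv (B, finProdFinEquiv (c, o)))).1,
        finProdFinEquiv.symm (finProdFinEquiv.symm (finProdFinEquiv
          (B, finProdFinEquiv (c, o)))).2) = (B, c, o)
      rw [Equiv.symm_apply_apply, Equiv.symm_apply_apply]
    rw [Function.comp_apply]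
    unfold blockPerm
    rw [Equiv.coe_fn_mk, e1]
    rfl
  rw [h1, h2]
  refine (editDist_flatten _ _).trans ?_
  refine (Finset.sum_le_sum (g := fun _ => 2 * s) fun B _ => ?_).trans ?_
  · have hlen : ∀ c, (a B c).length = s := fun c => List.length_ofFn
    rcases hg B with h | h
    · rw [h]
      exact (editDist_rot (a B) hlen).1
    · have h3 := (editDist_rot (a B ∘ (finRotate l).symm) (fun c => hlen _)).2
      have h4 : (a B ∘ (finRotate l).symm) ∘ finRotate l = a B := by
        funext c
        rw [Function.comp_apply, Function.comp_apply, Equiv.symm_apply_apply]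
      rw [h4] at h3
      rw [h]
      exact h3
  · rw [Finset.sum_const, Finset.card_univ, Fintype.card_fin, smul_eq_mul]

theorem near_win {N nb w : ℕ} [NeZero w] (hN : N = nb * w) (x : Word N) (Q : Fin nb) (t : Fin w)
    (z : List Bool) :
    editDist (List.ofFn x ++ z)
      (List.ofFn (x ∘ winRot ((finCongr hN).trans finProdFinEquiv.symm) Q t) ++ z)
        ≤ 2 * (t : ℕ) := by
  subst hN
  refine (editDist_pad _ _ _).trans ?_
  rw [ofFn_prod x, ofFn_prod (x ∘ _)]
  refine (editDist_flatten _ _).trans ?_
  have e1 : ∀ (B : Fin nb) (j : Fin w), ((finCongr rfl).trans finProdFinEquiv.symm)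
      (finProdFinEquiv (B, j)) = (B, j) := fun B j => by
    change finProdFinEquiv.symm (finProdFinEquiv (B, j)) = (B, j)
    rw [Equiv.symm_apply_apply]
  have h0 : ∀ B ∈ (univ : Finset (Fin nb)), B ≠ Q →
      editDist (List.ofFn fun j : Fin w => x (finProdFinEquiv (B, j)))
        (List.ofFn fun j : Fin w => (x ∘ winRot ((finCongr rfl).trans finProdFinEquiv.symm) Q t)
          (finProdFinEquiv (B, j))) = 0 := by
    intro B _ hB
    have : (fun j : Fin w => (x ∘ winRot ((finCongr rfl).trans finProdFinEquiv.symm) Q t)
          (finProdFinEquiv (B, j))) = fun j : Fin w => x (finProdFinEquiv (B, j)) := by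
      funext j
      rw [Function.comp_apply]
      unfold winRot
      rw [Equiv.coe_fn_mk, e1, if_neg hB]
    rw [this, editDist_self]
  rw [Finset.sum_eq_single Q h0 (fun h => absurd (mem_univ Q) h)]
  set y : Fin w → Bool := fun j => x (finProdFinEquiv (Q, j)) with hy
  have h1 : (fun j : Fin w => (x ∘ winRot ((finCongr rfl).trans finProdFinEquiv.symm) Q t)
          (finProdFinEquiv (Q, j))) = fun j => y (j + t) := by
    funext j
    rw [Function.comp_apply]
    unfold winRot
    rw [Equiv.coe_fn_mk, e1, if_pos rfl]
    rfl
  rw [h1]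
  have h2 : (List.ofFn fun j : Fin w => y (j + t)) = (List.ofFn y).rotate t := by
    refine List.ext_getElem (by simp) fun k hk _ => ?_
    rw [List.length_ofFn] at hk
    rw [List.getElem_ofFn, List.getElem_rotate, List.getElem_ofFn]
    refine congrArg y (Fin.ext ?_)
    rw [Fin.val_add]
    simp
  have ht : (t : ℕ) ≤ (List.ofFn y).length := by
    rw [List.length_ofFn]
    exact le_of_lt t.isLt
  rw [h2, List.rotate_eq_drop_append_take ht]
  have h3 := editDist_swap ((List.ofFn y).take t) ((List.ofFn y).drop t)
  rw [(List.ofFn y).take_append_drop t, List.length_take] at h3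
  exact h3.trans (Nat.mul_le_mul_left 2 (min_le_left _ _))

end P238
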