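import Vale.Agent.P238.Main1
import Vale.Agent.P238.Far
import Vale.Agent.P238.Near

namespace P238
open Finset

/-- The Poincaré inequality for maps into `ℓ₁`. -/
theorem l1_ineq (w l J : ℕ) [NeZero w] (hl : 0 < l) (sw : Bool → Equiv.Perm (Fin l))
    (par : Fin l → Bool)
    (hsw : ∀ b c, sw b c = if xor (par c) b then (finRotate l).symm c else finRotate l c)
    (hinv : ∀ b c, sw b (sw b c) = c)
    (θ : ℝ) (hθ : 0 < θ) (m : ℕ) (hm : 1 ≤ m) (R : Finset (Fin w)) (hR : R.Nonempty)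
    (F : Word (w * l ^ J) → lp (fun _ : ℕ => ℝ) 1) :
    ∑ j : Fin J, ∑ τ : Fin (l ^ (J - 1 - (j : ℕ))) → Bool,
        (1 / 2 ^ (l ^ (J - 1 - (j : ℕ))) : ℝ) * ∑ x, ‖F x - F (farMap w l J sw j τ x)‖
      ≤ ∑ j : Fin J, ∑ τ : Fin (l ^ (J - 1 - (j : ℕ))) → Bool,
        (1 / 2 ^ (l ^ (J - 1 - (j : ℕ))) : ℝ) * ∑ x, ‖F x - F (nearMap w l J j τ x)‖
      + (3 ^ m * √θ + 1 / m + 1 / (R.card * θ)) * ∑ i, ∑ x, ‖F x - F (flip i x)‖
      + 2 / (R.card * θ) * ∑ Q : Fin (l ^ J), ∑ v ∈ R,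
          ∑ x, ‖F x - F (x ∘ winRot (wsplit w l J) Q v)‖ := by
  classical
  set A1 : ℝ := 3 ^ m * √θ + 1 / m + 1 / (R.card * θ) with hA1
  set A2 : ℝ := 2 / (R.card * θ) with hA2
  let I := Σ j : Fin J, (Fin (l ^ (J - 1 - (j : ℕ))) → Bool)
  let K := I ⊕ (I ⊕ (Fin (w * l ^ J) ⊕ (Fin (l ^ J) × R)))
  let α : K → ℝ := Sum.elim (fun p => 1 / 2 ^ (l ^ (J - 1 - (p.1 : ℕ))))
    (Sum.elim (fun p => -(1 / 2 ^ (l ^ (J - 1 - (p.1 : ℕ)))))
      (Sum.elim (fun _ => -A1) (fun _ => -A2)))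
  let g : K → Word (w * l ^ J) → Word (w * l ^ J) :=
    Sum.elim (fun p => farMap w l J sw p.1 p.2)
      (Sum.elim (fun p => nearMap w l J p.1 p.2)
        (Sum.elim (fun i => flip i) (fun q x => x ∘ winRot (wsplit w l J) q.1 q.2.1)))
  have hexp : ∀ Φ : (Word (w * l ^ J) → Word (w * l ^ J)) → ℝ,
      ∑ k : K, α k * Φ (g k)
        = ∑ j : Fin J, ∑ τ : Fin (l ^ (J - 1 - (j : ℕ))) → Bool,
            (1 / 2 ^ (l ^ (J - 1 - (j : ℕ))) : ℝ) * Φ (farMap w l J sw j τ)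
          - ∑ j : Fin J, ∑ τ : Fin (l ^ (J - 1 - (j : ℕ))) → Bool,
            (1 / 2 ^ (l ^ (J - 1 - (j : ℕ))) : ℝ) * Φ (nearMap w l J j τ)
          - A1 * ∑ i, Φ (flip i)
          - A2 * ∑ Q : Fin (l ^ J), ∑ v ∈ R, Φ (fun x => x ∘ winRot (wsplit w l J) Q v) := by
    intro Φ
    rw [Fintype.sum_sum_type, Fintype.sum_sum_type, Fintype.sum_sum_type]
    have e1 : ∑ p : I, α (Sum.inl p) * Φ (g (Sum.inl p))
        = ∑ j : Fin J, ∑ τ : Fin (l ^ (J - 1 - (j : ℕ))) → Bool,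
            (1 / 2 ^ (l ^ (J - 1 - (j : ℕ))) : ℝ) * Φ (farMap w l J sw j τ) := by
      rw [Fintype.sum_sigma]
      rfl
    have e2 : ∑ p : I, α (Sum.inr (Sum.inl p)) * Φ (g (Sum.inr (Sum.inl p)))
        = - ∑ j : Fin J, ∑ τ : Fin (l ^ (J - 1 - (j : ℕ))) → Bool,
            (1 / 2 ^ (l ^ (J - 1 - (j : ℕ))) : ℝ) * Φ (nearMap w l J j τ) := by
      rw [Fintype.sum_sigma, ← Finset.sum_neg_distrib]
      refine Finset.sum_congr rfl (fun j _ => ?_)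
      rw [← Finset.sum_neg_distrib]
      refine Finset.sum_congr rfl (fun τ _ => ?_)
      simp only [α, g, Sum.elim_inl, Sum.elim_inr]
      ring
    have e3 : ∑ i : Fin (w * l ^ J), α (Sum.inr (Sum.inr (Sum.inl i)))
          * Φ (g (Sum.inr (Sum.inr (Sum.inl i)))) = - (A1 * ∑ i, Φ (flip i)) := by
      rw [Finset.mul_sum, ← Finset.sum_neg_distrib]
      refine Finset.sum_congr rfl (fun i _ => ?_)
      simp only [α, g, Sum.elim_inl, Sum.elim_inr]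
      ring
    have e4 : ∑ q : Fin (l ^ J) × R, α (Sum.inr (Sum.inr (Sum.inr q)))
          * Φ (g (Sum.inr (Sum.inr (Sum.inr q))))
        = - (A2 * ∑ Q : Fin (l ^ J), ∑ v ∈ R,
            Φ (fun x => x ∘ winRot (wsplit w l J) Q v)) := by
      rw [Fintype.sum_prod_type, Finset.mul_sum, ← Finset.sum_neg_distrib]
      refine Finset.sum_congr rfl (fun Q _ => ?_)
      rw [Finset.mul_sum, ← Finset.sum_neg_distrib]
      rw [← Finset.sum_coe_sort R]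
      refine Finset.sum_congr rfl (fun v _ => ?_)
      simp only [α, g, Sum.elim_inr]
      ring
    rw [e1, e2, e3, e4]
    ring
  have hcut := cut_cone α g (fun f hf => by
    rw [hexp (fun h => ∑ x, |f x - f (h x)|)]
    have := cut_ineq w l J hl sw par hsw hinv θ hθ m hm R hR f hf
    unfold tv at this
    linarith) F
  rw [hexp (fun h => ∑ x, ‖F x - F (h x)‖)] at hcut
  linarith

end P238
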