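import Vale.Agent.P238.Main2

namespace P238
open Finset

lemma num_ineq (m : ℕ) (hm : 1 ≤ m) :
    3 ^ m * √((1 / 2 : ℝ) ^ (8 * m)) + 1 / m + 1 / (2 ^ (16 * m) * (1 / 2 : ℝ) ^ (8 * m))
      + 4 * (1 / 2 : ℝ) ^ (8 * m) ≤ 3 / m := by
  have hm' : (0 : ℝ) < m := by exact_mod_cast hm
  have h1 : √((1 / 2 : ℝ) ^ (8 * m)) = (1 / 2 : ℝ) ^ (4 * m) := by
    rw [show 8 * m = (4 * m) * 2 by ring, pow_mul]
    exact Real.sqrt_sq (by positivity)
  have h2 : (1 / 2 : ℝ) ^ m ≤ 1 / m := by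
    rw [one_div, inv_pow, one_div]
    refine inv_anti₀ hm' ?_
    exact_mod_cast (Nat.lt_two_pow_self (n := m)).le
  have h3 : (3 : ℝ) ^ m * (1 / 2 : ℝ) ^ (4 * m) ≤ (1 / 2) ^ m := by
    rw [pow_mul, ← mul_pow]
    exact pow_le_pow_left₀ (by norm_num) (by norm_num) m
  have h4 : (1 / 2 : ℝ) ^ (8 * m) ≤ (1 / 128) * (1 / 2) ^ m := by
    rw [show 8 * m = 7 * m + m by ring, pow_add]
    refine mul_le_mul_of_nonneg_right ?_ (by positivity)
    calc (1 / 2 : ℝ) ^ (7 * m) ≤ (1 / 2 : ℝ) ^ 7 :=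
          pow_le_pow_of_le_one (by norm_num) (by norm_num) (by omega)
      _ = 1 / 128 := by norm_num
  have h5 : 1 / (2 ^ (16 * m) * (1 / 2 : ℝ) ^ (8 * m)) = (1 / 2 : ℝ) ^ (8 * m) := by
    rw [show 16 * m = 8 * m + 8 * m by ring, pow_add]
    have : (2 : ℝ) ^ (8 * m) * (1 / 2) ^ (8 * m) = 1 := by
      rw [← mul_pow]; norm_num
    rw [mul_assoc, this, mul_one, one_div, one_div, inv_pow]
  rw [h1, h5]
  have h6 : (3 : ℝ) / m = 1 / m + 1 / m + 1 / m := by ring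
  have h7 : (0 : ℝ) < 1 / m := by positivity
  rw [h6]
  linarith

/-- Padding of words. -/
def pad {N n : ℕ} (x : Word N) : Word n := fun i => if h : (i : ℕ) < N then x ⟨i, h⟩ else false

lemma ofFn_pad {N n : ℕ} (h : N ≤ n) (x : Word N) :
    List.ofFn (pad x : Word n) = List.ofFn x ++ List.replicate (n - N) false := by
  obtain ⟨d, rfl⟩ := Nat.exists_eq_add_of_le h
  rw [List.ofFn_add]
  congr 1
  · congr 1
    funext i
    simp [pad]
  · rw [List.eq_replicate_iff]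
    constructor
    · simp
    · intro b hb
      rw [List.mem_ofFn] at hb
      obtain ⟨j, rfl⟩ := hb
      simp [pad]

lemma far' {N K : ℕ} (hN : N = 1024 * K) (hK : 1 ≤ K) (T : Equiv.Perm (Fin N))
    (hT : ∀ p, T (T p) = p) (hT' : ∀ p, T p ≠ p) (z : List Bool) :
    (K : ℝ) / 2 * 2 ^ N ≤
      ∑ x : Word N, (editDist (List.ofFn x ++ z) (List.ofFn (x ∘ T) ++ z) : ℝ) := by
  subst hN
  exact far K hK T hT hT' z

lemma exists_sw' (l μ : ℕ) (h : l = 2 * μ) (hμ : 2 ≤ μ) : ∃ (sw : Bool → Equiv.Perm (Fin l))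
    (par : Fin l → Bool),
    (∀ b c, sw b c = if xor (par c) b then (finRotate l).symm c else finRotate l c) ∧
    (∀ b c, sw b (sw b c) = c) ∧ (∀ b c, sw b c ≠ c) := by
  subst h
  exact exists_sw μ hμ

theorem core (m b J n : ℕ) (hm : 1 ≤ m) (hb : 2 ≤ b) (hJ : 1 ≤ J)
    (hn : 2 ^ (32 * m) * (2 ^ b) ^ J ≤ n) (F : Word n → lp (fun _ : ℕ => ℝ) 1) (A B : ℝ)
    (hA0 : 0 ≤ A) (hB0 : 0 ≤ B)
    (hA : ∀ x y, ‖F x - F y‖ ≤ A * ed x y) (hB : ∀ x y, (ed x y : ℝ) ≤ B * ‖F x - F y‖) :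
    (1 : ℝ) / 2048 ≤ A * B * (2 / 2 ^ b + 3 / (m * J)) := by
  classical
  set w : ℕ := 2 ^ (32 * m) with hw
  set l : ℕ := 2 ^ b with hl
  set N : ℕ := w * l ^ J with hNdef
  have hw0 : 0 < w := by positivity
  have hl0 : 0 < l := by positivity
  have : NeZero w := ⟨hw0.ne'⟩
  set K : ℕ := 2 ^ (32 * m - 10) * l ^ J with hKdef
  have hNK : N = 1024 * K := by
    rw [hNdef, hKdef, hw, ← mul_assoc]
    congr 1
    rw [show (1024 : ℕ) = 2 ^ 10 by norm_num, ← pow_add]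
    congr 1
    omega
  have hK1 : 1 ≤ K := Nat.succ_le_of_lt (by positivity)
  have hl2 : l = 2 * 2 ^ (b - 1) := by
    rw [hl, ← pow_succ']
    congr 1
    omega
  obtain ⟨sw, par, hsw, hinv, hfix⟩ := exists_sw' l (2 ^ (b - 1)) hl2 (by
    calc 2 = 2 ^ 1 := by norm_num
      _ ≤ 2 ^ (b - 1) := Nat.pow_le_pow_right (by norm_num) (by omega))
  -- the small rotations
  set r : ℕ := 2 ^ (16 * m) with hr
  have hrw : r ≤ w := Nat.pow_le_pow_right (by norm_num) (by omega)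
  have hr0 : 0 < r := by positivity
  set R : Finset (Fin w) := univ.filter (fun t => (t : ℕ) < r) with hRdef
  have hRcard : R.card = r := by
    have h1 : R = (Finset.univ : Finset (Fin r)).map (Fin.castLEEmb hrw) := by
      ext t
      simp only [hRdef, Finset.mem_filter, Finset.mem_univ, true_and, Finset.mem_map]
      constructor
      · intro ht
        exact ⟨⟨t, ht⟩, rfl⟩
      · rintro ⟨a, rfl⟩
        exact a.2
    rw [h1, Finset.card_map, Finset.card_univ, Fintype.card_fin]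
  have hRne : R.Nonempty := Finset.card_pos.mp (by rw [hRcard]; exact hr0)
  set θ : ℝ := (1 / 2 : ℝ) ^ (8 * m) with hθ
  have hθ0 : 0 < θ := by positivity
  set G : Word N → lp (fun _ : ℕ => ℝ) 1 := fun x => F (pad x) with hG
  set z : List Bool := List.replicate (n - N) false with hz
  have hed : ∀ x y : Word N, ed (pad x : Word n) (pad y)
      = editDist (List.ofFn x ++ z) (List.ofFn y ++ z) := by
    intro x y
    unfold ed
    rw [ofFn_pad hn, ofFn_pad hn]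
  have hmain := l1_ineq w l J hl0 sw par hsw hinv θ hθ0 m hm R hRne G
  -- upper bounds
  have hup : ∀ (g : Word N → Word N) (c : ℕ),
      (∀ x, editDist (List.ofFn x ++ z) (List.ofFn (g x) ++ z) ≤ c) →
      ∑ x, ‖G x - G (g x)‖ ≤ 2 ^ N * (A * c) := by
    intro g c hc
    have h1 : ∀ x ∈ (univ : Finset (Word N)), ‖G x - G (g x)‖ ≤ A * c := by
      intro x _
      refine (hA _ _).trans ?_
      rw [hed]
      exact mul_le_mul_of_nonneg_left (by exact_mod_cast hc x) hA0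
    refine (Finset.sum_le_card_nsmul _ _ _ h1).trans (le_of_eq ?_)
    rw [nsmul_eq_mul, Finset.card_univ]
    simp
  have hNpos : (0 : ℝ) < N := by
    have : 0 < N := by rw [hNK]; omega
    exact_mod_cast this
  have hlR : (l : ℝ) = 2 ^ b := by rw [hl]; push_cast; rfl
  have hlpos : (0 : ℝ) < l := by exact_mod_cast hl0
  have h2N : (0 : ℝ) < 2 ^ N := by positivity
  have hnear : ∀ (j : Fin J) (σ : Fin (l ^ (J - 1 - (j : ℕ))) → Bool),
      ∑ x, ‖G x - G (nearMap w l J j σ x)‖ ≤ 2 ^ N * (A * (2 * N / l)) := by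
    intro j σ
    have h1 := hup (nearMap w l J j σ) (l ^ (J - 1 - (j : ℕ)) * (2 * (w * l ^ (j : ℕ)))) (fun x =>
      near_block (lvl_size w l J j j.2) x _ (fun B => by
        by_cases h : σ B
        · right; simp [h]
        · left; simp [h]) z)
    refine h1.trans (le_of_eq ?_)
    congr 2
    rw [eq_div_iff hlpos.ne']
    have h2 := lvl_size w l J j j.2
    have h3 : (l ^ (J - 1 - (j : ℕ)) * (2 * (w * l ^ (j : ℕ)))) * l = 2 * N := by
      rw [hNdef]
      conv_rhs => rw [h2]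
      ring
    exact_mod_cast h3
  have hflip : ∀ i : Fin N, ∑ x, ‖G x - G (flip i x)‖ ≤ 2 ^ N * A := by
    intro i
    have h1 := hup (flip i) 1 (fun x => near_flip x i z)
    simpa using h1
  have hwin : ∀ (Q : Fin (l ^ J)), ∀ v ∈ R,
      ∑ x, ‖G x - G (x ∘ winRot (wsplit w l J) Q v)‖ ≤ 2 ^ N * (A * (2 * r)) := by
    intro Q v hv
    have hv' : (v : ℕ) < r := (Finset.mem_filter.mp hv).2
    have h1 := hup (fun x => x ∘ winRot (wsplit w l J) Q v) (2 * r) (fun x =>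
      (near_win (win_size w l J) x Q v z).trans (by omega))
    refine h1.trans (le_of_eq ?_)
    push_cast
    rfl
  have hfar : ∀ (j : Fin J) (τ : Fin (l ^ (J - 1 - (j : ℕ))) → Bool),
      (K : ℝ) / 2 * 2 ^ N ≤ B * ∑ x, ‖G x - G (farMap w l J sw j τ x)‖ := by
    intro j τ
    have h1 := far' hNK hK1 (blockPerm (lvl w l J j j.2) (fun B => sw (τ B)))
      (fun p => by simp [blockPerm, hinv]) (fun p hp => by
        have h2 := congrArg (fun q => (lvl w l J j j.2 q).2.1) hp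
        simp only [blockPerm, Equiv.coe_fn_mk, Equiv.apply_symm_apply] at h2
        exact hfix _ _ h2) z
    refine h1.trans ?_
    rw [Finset.mul_sum]
    refine Finset.sum_le_sum (fun x _ => ?_)
    have h2 := hB (pad x : Word n) (pad (farMap w l J sw j τ x))
    rw [hed] at h2
    exact h2
  have hcardR : (R.card : ℝ) = r := by rw [hRcard]
  have hrpos : (0 : ℝ) < r := by exact_mod_cast hr0
  have hmpos : (0 : ℝ) < m := by exact_mod_cast hm
  have hJpos : (0 : ℝ) < J := by exact_mod_cast hJ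
  rw [hcardR] at hmain
  set A1 : ℝ := 3 ^ m * √θ + 1 / m + 1 / (r * θ) with hA1
  set A2 : ℝ := 2 / (r * θ) with hA2
  have hA1pos : 0 ≤ A1 := by positivity
  have hA2pos : 0 ≤ A2 := by positivity
  -- lower bound for the far side
  have hcst : ∀ (j : Fin J) (c : ℝ), ∑ _τ : Fin (l ^ (J - 1 - (j : ℕ))) → Bool,
        (1 / 2 ^ (l ^ (J - 1 - (j : ℕ))) : ℝ) * c = c := by
    intro j c
    rw [Finset.sum_const, nsmul_eq_mul, Finset.card_univ]
    simp only [Fintype.card_pi, Fintype.card_bool, Finset.prod_const, Finset.card_univ,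
      Fintype.card_fin, Nat.cast_pow, Nat.cast_ofNat]
    have : (2 : ℝ) ^ (l ^ (J - 1 - (j : ℕ))) ≠ 0 := by positivity
    field_simp
  have hlow : (J : ℝ) * ((K : ℝ) / 2 * 2 ^ N) ≤ B * ∑ j : Fin J,
      ∑ τ : Fin (l ^ (J - 1 - (j : ℕ))) → Bool,
        (1 / 2 ^ (l ^ (J - 1 - (j : ℕ))) : ℝ) * ∑ x, ‖G x - G (farMap w l J sw j τ x)‖ := by
    have h1 : (J : ℝ) * ((K : ℝ) / 2 * 2 ^ N) = ∑ j : Fin J,
        ∑ τ : Fin (l ^ (J - 1 - (j : ℕ))) → Bool,
          (1 / 2 ^ (l ^ (J - 1 - (j : ℕ))) : ℝ) * ((K : ℝ) / 2 * 2 ^ N) := by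
      simp_rw [hcst]
      simp
    rw [h1, Finset.mul_sum]
    refine Finset.sum_le_sum (fun j _ => ?_)
    rw [Finset.mul_sum]
    refine Finset.sum_le_sum (fun τ _ => ?_)
    have h2 := hfar j τ
    have h3 : (0 : ℝ) ≤ 1 / 2 ^ (l ^ (J - 1 - (j : ℕ))) := by positivity
    calc _ ≤ (1 / 2 ^ (l ^ (J - 1 - (j : ℕ))) : ℝ)
          * (B * ∑ x, ‖G x - G (farMap w l J sw j τ x)‖) := mul_le_mul_of_nonneg_left h2 h3
      _ = _ := by ring
  -- upper bound for the near side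
  have hupper : ∑ j : Fin J, ∑ τ : Fin (l ^ (J - 1 - (j : ℕ))) → Bool,
        (1 / 2 ^ (l ^ (J - 1 - (j : ℕ))) : ℝ) * ∑ x, ‖G x - G (nearMap w l J j τ x)‖
      + A1 * ∑ i, ∑ x, ‖G x - G (flip i x)‖
      + A2 * ∑ Q : Fin (l ^ J), ∑ v ∈ R, ∑ x, ‖G x - G (x ∘ winRot (wsplit w l J) Q v)‖
      ≤ J * (2 ^ N * (A * (2 * N / l))) + A1 * (N * (2 ^ N * A))
        + A2 * ((l : ℝ) ^ J * (r * (2 ^ N * (A * (2 * r))))) := by
    refine add_le_add (add_le_add ?_ ?_) ?_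
    · have h1 : (J : ℝ) * (2 ^ N * (A * (2 * N / l))) = ∑ j : Fin J,
          ∑ τ : Fin (l ^ (J - 1 - (j : ℕ))) → Bool,
          (1 / 2 ^ (l ^ (J - 1 - (j : ℕ))) : ℝ) * (2 ^ N * (A * (2 * N / l))) := by
        simp_rw [hcst]
        simp
      rw [h1]
      refine Finset.sum_le_sum (fun j _ => Finset.sum_le_sum (fun τ _ => ?_))
      exact mul_le_mul_of_nonneg_left (hnear j τ) (by positivity)
    · refine mul_le_mul_of_nonneg_left ?_ hA1pos
      refine (Finset.sum_le_card_nsmul _ _ _ (fun i _ => hflip i)).trans (le_of_eq ?_)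
      simp
    · refine mul_le_mul_of_nonneg_left ?_ hA2pos
      have h1 : ∀ Q ∈ (univ : Finset (Fin (l ^ J))),
          ∑ v ∈ R, ∑ x, ‖G x - G (x ∘ winRot (wsplit w l J) Q v)‖
            ≤ r * (2 ^ N * (A * (2 * r))) := by
        intro Q _
        refine (Finset.sum_le_card_nsmul _ _ _ (fun v hv => hwin Q v hv)).trans (le_of_eq ?_)
        rw [nsmul_eq_mul, hcardR]
      refine (Finset.sum_le_card_nsmul _ _ _ h1).trans (le_of_eq ?_)
      simp
  have hall : (J : ℝ) * ((K : ℝ) / 2 * 2 ^ N) ≤ B * (J * (2 ^ N * (A * (2 * N / l)))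
      + A1 * (N * (2 ^ N * A)) + A2 * ((l : ℝ) ^ J * (r * (2 ^ N * (A * (2 * r)))))) :=
    hlow.trans (mul_le_mul_of_nonneg_left (hmain.trans hupper) hB0)
  have hKN : (K : ℝ) = N / 1024 := by
    have : (N : ℝ) = 1024 * K := by exact_mod_cast hNK
    rw [this]; ring
  have hw' : (w : ℝ) * (l : ℝ) ^ J = N := by
    rw [hNdef]; push_cast; rfl
  have hwpos : (0 : ℝ) < w := by exact_mod_cast hw0
  have hA2' : A2 * ((l : ℝ) ^ J * (r * (2 * r))) = N * (4 * (1 / 2 : ℝ) ^ (8 * m)) := by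
    have h1 : (r : ℝ) = 2 ^ (16 * m) := by rw [hr]; push_cast; rfl
    have h2 : (w : ℝ) = 2 ^ (32 * m) := by rw [hw]; push_cast; rfl
    have h3 : (2 : ℝ) ^ (8 * m) * (1 / 2) ^ (8 * m) = 1 := by
      rw [← mul_pow]; norm_num
    have h4 : (r : ℝ) = w * (θ * θ) := by
      rw [h1, h2, hθ, show 32 * m = 16 * m + 8 * m + 8 * m by ring, pow_add, pow_add]
      calc (2 : ℝ) ^ (16 * m) = 2 ^ (16 * m) * (2 ^ (8 * m) * (1 / 2) ^ (8 * m))
            * (2 ^ (8 * m) * (1 / 2) ^ (8 * m)) := by rw [h3]; ring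
        _ = _ := by ring
    rw [hA2, ← hw']
    have h5 : 2 / ((r : ℝ) * θ) * ((l : ℝ) ^ J * (r * (2 * r))) = (l : ℝ) ^ J * (4 * (r / θ)) := by
      field_simp
      ring
    rw [h5]
    have h6 : (r : ℝ) / θ = w * θ := by
      rw [div_eq_iff hθ0.ne', h4]
      ring
    rw [h6]
    ring
  have hnum := num_ineq m hm
  rw [← hθ] at hnum
  have hr' : (r : ℝ) = 2 ^ (16 * m) := by rw [hr]; push_cast; rfl
  have hnum' : A1 + 4 * (1 / 2 : ℝ) ^ (8 * m) ≤ 3 / m := by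
    rw [hA1, hr']
    exact hnum
  -- divide
  have h1 : B * (J * (2 ^ N * (A * (2 * N / l)))
      + A1 * (N * (2 ^ N * A)) + A2 * ((l : ℝ) ^ J * (r * (2 ^ N * (A * (2 * r))))))
      = A * B * 2 ^ N * (N * (J * (2 / l) + (A1 + 4 * (1 / 2 : ℝ) ^ (8 * m)))) := by
    have h2 : A2 * ((l : ℝ) ^ J * (r * (2 ^ N * (A * (2 * r)))))
        = 2 ^ N * A * (A2 * ((l : ℝ) ^ J * (r * (2 * r)))) := by ring
    rw [h2, hA2']
    ring
  rw [h1, hKN] at hall
  have h3 : A * B * 2 ^ N * (N * (J * (2 / l) + (A1 + 4 * (1 / 2 : ℝ) ^ (8 * m))))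
      ≤ A * B * 2 ^ N * (N * (J * (2 / l) + 3 / m)) := by
    refine mul_le_mul_of_nonneg_left ?_ (by positivity)
    exact mul_le_mul_of_nonneg_left (by linarith) hNpos.le
  have h4 := hall.trans h3
  have h5 : (J : ℝ) * (N / 1024 / 2 * 2 ^ N) = (2 ^ N * N * J) * (1 / 2048) := by ring
  have h6 : A * B * 2 ^ N * (N * (J * (2 / l) + 3 / m))
      = (2 ^ N * N * J) * (A * B * (2 / l + 3 / (m * J))) := by
    field_simp
  rw [h5, h6] at h4
  have h7 := le_of_mul_le_mul_left h4 (by positivity)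
  rw [hlR] at h7
  exact h7

end P238
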