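import Vale.Agent.P238.KKL

namespace P238
open Finset

lemma var_le {ι : Type*} [Fintype ι] [DecidableEq ι] (h : (ι → Bool) → ℝ) (hh : IsCut h) :
    4 * ∑ S ∈ (univ : Finset (Finset ι)) with S ≠ ∅, coef h S ^ 2 ≤ 1 := by
  have h1 := parseval h
  have h2 : ∑ x, h x ^ 2 = ∑ x, h x := by
    refine Finset.sum_congr rfl (fun x _ => ?_)
    rcases hh x with h3 | h3 <;> rw [h3] <;> norm_num
  have h3 : coef h ∅ = (∑ x, h x) / 2 ^ (Fintype.card ι) := by
    unfold coef chi
    simp
  rw [h2, ← h3] at h1
  have h4 := Finset.sum_filter_add_sum_filter_not (univ : Finset (Finset ι)) (fun S => S ≠ ∅)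
    (fun S => coef h S ^ 2)
  have h5 : ∑ S ∈ (univ : Finset (Finset ι)) with ¬ (S ≠ ∅), coef h S ^ 2 = coef h ∅ ^ 2 := by
    have : (univ : Finset (Finset ι)).filter (fun S => ¬ (S ≠ ∅)) = {∅} := by
      ext S; simp
    rw [this, Finset.sum_singleton]
  rw [h5, h1] at h4
  nlinarith [sq_nonneg (coef h ∅ - 1 / 2)]

section
variable {V : Type*} [Fintype V] [DecidableEq V] [AddCommGroup V]

/-- rotation of words by `v`. -/
def rot (v : V) (x : V → Bool) : V → Bool := x ∘ (fun a => a + v)

/-- rotation as an equivalence. -/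
def rotEquiv (v : V) : (V → Bool) ≃ (V → Bool) where
  toFun := rot v
  invFun := rot (-v)
  left_inv x := by funext a; simp [rot]
  right_inv x := by funext a; simp [rot]

lemma flip_invol {ι : Type*} [DecidableEq ι] (i : ι) :
    Function.Involutive (flip i : (ι → Bool) → (ι → Bool)) := by
  intro x
  funext k
  by_cases hk : k = i
  · subst hk; simp [flip]
  · simp [flip, Function.update_of_ne hk]

lemma rot_flip (v i : V) (x : V → Bool) : rot v (flip i x) = flip (i - v) (rot v x) := by
  funext a
  by_cases ha : a = i - v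
  · subst ha
    simp [rot, flip]
  · have ha' : a + v ≠ i := fun hc => ha (eq_sub_of_add_eq hc)
    simp [rot, flip, Function.update_of_ne ha, Function.update_of_ne ha']

lemma tv_rot (h : (V → Bool) → ℝ) (v i : V) :
    tv h (flip i) ≤ tv h (flip (i - v)) + 2 * tv h (rot v) := by
  have h1 : tv h (flip (i - v)) = ∑ x, |h (rot v x) - h (rot v (flip i x))| := by
    unfold tv
    refine (Fintype.sum_equiv (rotEquiv v) _ _ (fun x => ?_)).symm
    rw [rot_flip]
    rfl
  have h2 : tv h (rot v) = ∑ x, |h (flip i x) - h (rot v (flip i x))| := by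
    unfold tv
    refine (Fintype.sum_equiv (flip_invol i).toPerm _ _ (fun x => ?_)).symm
    rfl
  have h3 : tv h (flip i) ≤ ∑ x, (|h (rot v x) - h (rot v (flip i x))| + |h x - h (rot v x)|
      + |h (flip i x) - h (rot v (flip i x))|) := by
    unfold tv
    refine Finset.sum_le_sum (fun x _ => ?_)
    have := abs_sub_le (h x) (h (rot v x)) (h (flip i x))
    have h4 := abs_sub_le (h (rot v x)) (h (rot v (flip i x))) (h (flip i x))
    rw [abs_sub_comm (h (rot v (flip i x))) (h (flip i x))] at h4
    linarith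
  rw [Finset.sum_add_distrib, Finset.sum_add_distrib, ← h1, ← h2] at h3
  have h5 : ∑ x, |h x - h (rot v x)| = tv h (rot v) := rfl
  rw [h5] at h3
  linarith

end

/-- The dichotomy in one window: `V` is a cyclic group of positions, `R` a set of small
rotations. Either all influences are at most `θ` and KKL applies, or one is larger and then, by
near-invariance under rotations, the total influence is large. -/
theorem window {V : Type*} [Fintype V] [DecidableEq V] [AddCommGroup V]
    (h : (V → Bool) → ℝ) (hh : IsCut h) (θ : ℝ) (hθ : 0 < θ) (m : ℕ) (hm : 1 ≤ m)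
    (R : Finset V) (hR : R.Nonempty) :
    4 * ∑ S ∈ (univ : Finset (Finset V)) with S ≠ ∅, coef h S ^ 2
      ≤ (3 ^ m * √θ + 1 / m) * ∑ i, infl h i
        + 1 / (R.card * θ) * (∑ i, infl h i
          + 2 * ∑ v ∈ R, tv h (fun x => x ∘ (fun a => a + v)) / 2 ^ (Fintype.card V)) := by
  have hI0 : 0 ≤ ∑ i, infl h i := Finset.sum_nonneg (fun i _ => infl_nonneg h i)
  have hT0 : 0 ≤ ∑ v ∈ R, tv h (fun x => x ∘ (fun a => a + v)) / 2 ^ (Fintype.card V) :=
    Finset.sum_nonneg (fun v _ => div_nonneg (Finset.sum_nonneg (fun _ _ => abs_nonneg _))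
      (by positivity))
  have hc : (0 : ℝ) < R.card := by exact_mod_cast hR.card_pos
  by_cases hcase : ∀ i, infl h i ≤ θ
  · have h1 := kkl h hh θ hθ.le hcase m hm
    have h2 : 0 ≤ 1 / (R.card * θ) * (∑ i, infl h i
          + 2 * ∑ v ∈ R, tv h (fun x => x ∘ (fun a => a + v)) / 2 ^ (Fintype.card V)) := by
      positivity
    linarith
  · push Not at hcase
    obtain ⟨i, hi⟩ := hcase
    have h1 : ∀ v ∈ R, θ - 2 * (tv h (fun x => x ∘ (fun a => a + v)) / 2 ^ (Fintype.card V))
        ≤ infl h (i - v) := by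
      intro v _
      have h2 := tv_rot h v i
      have h3 : tv h (rot v) = tv h (fun x => x ∘ (fun a => a + v)) := rfl
      rw [h3] at h2
      have hn : (0 : ℝ) < 2 ^ (Fintype.card V) := by positivity
      have h4 := div_le_div_of_nonneg_right h2 hn.le
      unfold infl at hi ⊢
      rw [add_div, mul_div_assoc] at h4
      linarith
    have h2 := Finset.sum_le_sum h1
    rw [Finset.sum_sub_distrib, Finset.sum_const, nsmul_eq_mul, ← Finset.mul_sum] at h2
    have h3 : ∑ v ∈ R, infl h (i - v) ≤ ∑ i, infl h i := by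
      have h4 : ∑ v ∈ R, infl h (i - v) = ∑ u ∈ R.image (fun v => i - v), infl h u := by
        rw [Finset.sum_image]
        intro a _ b _ hab
        exact sub_right_injective hab
      rw [h4]
      exact Finset.sum_le_sum_of_subset_of_nonneg (Finset.subset_univ _)
        (fun u _ _ => infl_nonneg h u)
    have h5 : (R.card : ℝ) * θ ≤ ∑ i, infl h i
          + 2 * ∑ v ∈ R, tv h (fun x => x ∘ (fun a => a + v)) / 2 ^ (Fintype.card V) := by
      linarith
    have h6 : 1 ≤ 1 / (R.card * θ) * (∑ i, infl h i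
          + 2 * ∑ v ∈ R, tv h (fun x => x ∘ (fun a => a + v)) / 2 ^ (Fintype.card V)) := by
      rw [one_div_mul_eq_div, one_le_div (by positivity)]
      exact h5
    have h7 := var_le h hh
    have h8 : 0 ≤ (3 ^ m * √θ + 1 / m) * ∑ i, infl h i := by positivity
    linarith

end P238
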